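import Crest.Agent.N334.G.Defs
import Crest.Agent.N334.Sw.Defs
import Crest.Agent.N334.End.Defs

-- ▼ part N334/G/Torus
section

/-!
# Row 334, S0519: the torus `(ZMod (2^N))²` as a `Lat`
-/

set_option autoImplicit false

open MeasureTheory Finset Complex
open scoped BigOperators ComplexConjugate

noncomputable section

namespace Crest.Agent.N334.G

abbrev TX (N : ℕ) : Type := Fin 2 → ZMod (2 ^ N)

def tU (N m : ℕ) (i : Fin 2) (x : TX N) : ℂ :=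
  Complex.exp (2 * Real.pi * I * ((x i).val : ℂ) / 2 ^ m)

def tA (N : ℕ) : Matrix (TX N) (TX N) ℝ := fun x y =>
  ∑ j, ((if y = x + Pi.single j 1 then 1 else 0) + if y = x - Pi.single j 1 then 1 else 0)

namespace Tor0

theorem vma_le {n : ℕ} [NeZero n] (a : ℤ) : (a : ZMod n).valMinAbs.natAbs ≤ a.natAbs :=
  ZMod.natAbs_min_of_le_div_two n _ _ (ZMod.coe_valMinAbs _) (ZMod.natAbs_valMinAbs_le _)

theorem vma_sq {n : ℕ} [NeZero n] (a : ℤ) :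
    (((a : ZMod n).valMinAbs : ℤ) : ℝ) ^ 2 ≤ (a : ℝ) ^ 2 := by
  exact_mod_cast Int.natAbs_le_iff_sq_le.1 (vma_le a)

end Tor0

open Tor0

theorem tU_norm (N m : ℕ) (i : Fin 2) (x : TX N) : ‖tU N m i x‖ = 1 := by
  rw [tU, show 2 * Real.pi * I * ((x i).val : ℂ) / 2 ^ m
    = ((2 * Real.pi * (x i).val / 2 ^ m : ℝ) : ℂ) * I by push_cast; ring,
    Complex.norm_exp_ofReal_mul_I]
theorem tU_zero (N : ℕ) (i : Fin 2) (x : TX N) : tU N 0 i x = 1 := by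
  rw [tU, pow_zero, div_one, mul_comm, Complex.exp_nat_mul_two_pi_mul_I]
theorem tU_succ (N m : ℕ) (i : Fin 2) (x : TX N) : tU N m i x = tU N (m + 1) i x ^ 2 := by
  rw [tU, tU, ← Complex.exp_nat_mul]
  congr 1
  field_simp
  push_cast
  ring
theorem tA_symm (N : ℕ) (x y : TX N) : tA N x y = tA N y x := by
  refine sum_congr rfl fun j _ => ?_
  have e : ∀ a b : TX N, a = b - Pi.single j 1 ↔ b = a + Pi.single j 1 := fun a b => by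
    rw [eq_sub_iff_add_eq, eq_comm]
  rw [add_comm]
  simp only [e]
theorem tA_row (N : ℕ) (x : TX N) : ∑ y, |tA N x y| ≤ 4 := by
  have : ∀ y, |tA N x y| = tA N x y := fun y =>
    abs_of_nonneg (sum_nonneg fun _ _ => by split_ifs <;> norm_num)
  simp only [this]
  unfold tA
  rw [sum_comm]
  simp only [sum_add_distrib, sum_ite_eq', mem_univ, if_true]
  norm_num
/-- chord versus the centred representative: `16 u² ≤ chord² ≤ 40 u²` -/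
theorem chord_two_sided (N : ℕ) (i : Fin 2) (x y : TX N) :
    16 * (((x i - y i).valMinAbs : ℤ) : ℝ) ^ 2 ≤ (4 : ℝ) ^ N * ‖tU N N i x - tU N N i y‖ ^ 2 ∧
    (4 : ℝ) ^ N * ‖tU N N i x - tU N N i y‖ ^ 2 ≤ 40 * (((x i - y i).valMinAbs : ℤ) : ℝ) ^ 2 := by
  obtain ⟨u, hu⟩ : ∃ u, u = (x i - y i).valMinAbs := ⟨_, rfl⟩
  have h1 : (u.natAbs : ℝ) ≤ 2 ^ N / 2 := by
    rw [hu]
    exact_mod_cast (Nat.cast_le.2 (ZMod.natAbs_valMinAbs_le _)).trans Nat.cast_div_le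
  rw [Nat.cast_natAbs, Int.cast_abs] at h1
  obtain ⟨t, ht⟩ : ((2 ^ N : ℕ) : ℤ) ∣ (x i).val - (y i).val - u := by
    rw [← ZMod.intCast_zmod_eq_zero_iff_dvd, hu]
    simp
  have h2 : ((x i).val : ℂ) = (y i).val + u + 2 ^ N * t := by
    have : ((x i).val : ℤ) = (y i).val + u + 2 ^ N * t := by push_cast at ht; linarith
    exact_mod_cast this
  have h3 : ‖tU N N i x - tU N N i y‖ = 2 * |Real.sin (Real.pi * u / 2 ^ N)| := by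
    have : tU N N i x = tU N N i y * Complex.exp (I * (2 * (Real.pi * u / 2 ^ N) : ℝ)) := by
      rw [tU, tU, ← Complex.exp_add, h2, ← mul_one (Complex.exp (_ + _)),
        ← Complex.exp_int_mul_two_pi_mul_I t, ← Complex.exp_add]
      congr 1
      push_cast
      field_simp
    rw [this, ← mul_sub_one, norm_mul, tU_norm, one_mul, Complex.norm_exp_I_mul_ofReal_sub_one,
      mul_div_cancel_left₀ _ two_ne_zero, norm_mul, Real.norm_two, Real.norm_eq_abs]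
  have h4 : (0 : ℝ) < 2 ^ N := by positivity
  have h5 : |Real.pi * u / 2 ^ N| = Real.pi * |(u : ℝ)| / 2 ^ N := by
    rw [abs_div, abs_mul, abs_of_pos Real.pi_pos, abs_of_pos h4]
  have h6 := Real.mul_abs_le_abs_sin (x := Real.pi * u / 2 ^ N) (by
    rw [h5, div_le_iff₀ h4]
    nlinarith [Real.pi_pos])
  have h7 := Real.abs_sin_le_abs (x := Real.pi * u / 2 ^ N)
  have h8 : (4 : ℝ) ^ N = (2 ^ N) ^ 2 := by rw [← pow_mul, mul_comm, pow_mul]; norm_num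
  rw [h5] at h6 h7
  rw [show 2 / Real.pi * (Real.pi * |(u : ℝ)| / 2 ^ N) = 2 * |(u : ℝ)| / 2 ^ N by
    field_simp, div_le_iff₀ h4] at h6
  rw [le_div_iff₀ h4] at h7
  rw [← hu, h3, h8, ← mul_pow, ← sq_abs (u : ℝ)]
  have h9 := abs_nonneg (u : ℝ)
  constructor
  · nlinarith [pow_le_pow_left₀ (by positivity) h6 2]
  · have := pow_le_pow_left₀ (by positivity) (h7.trans
      (mul_le_mul_of_nonneg_right Real.pi_lt_d2.le h9)) 2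
    nlinarith
theorem tA_loc (N : ℕ) (x y : TX N) (h : tA N x y ≠ 0) :
    (4 : ℝ) ^ N * ∑ i, ‖tU N N i x - tU N N i y‖ ^ 2 ≤ 40 := by
  obtain ⟨j, -, hj⟩ := exists_ne_zero_of_sum_ne_zero h
  obtain ⟨s, hs, e⟩ : ∃ s : ℤ, (s : ℝ) ^ 2 = 1 ∧ x - y = Pi.single j (s : ZMod (2 ^ N)) := by
    by_cases h1 : y = x + Pi.single j 1
    · exact ⟨-1, by simp, by simp [h1, Pi.single_neg]⟩
    by_cases h2 : y = x - Pi.single j 1
    · exact ⟨1, by simp, by simp [h2]⟩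
    simp [h1, h2] at hj
  rw [mul_sum]
  refine (sum_le_sum fun i _ => (chord_two_sided N i x y).2).trans ?_
  rw [sum_eq_single j (fun i _ hi => by simp [← Pi.sub_apply, e, hi]) (by simp), ← Pi.sub_apply, e,
    Pi.single_eq_same]
  linarith [vma_sq (n := 2 ^ N) s]
theorem t_ball_le (N : ℕ) (x : TX N) (R2 : ℝ) (h : 0 ≤ R2) :
    ((univ.filter fun c => (4 : ℝ) ^ N * ∑ i, ‖tU N N i x - tU N N i c‖ ^ 2 ≤ R2).card : ℝ) ≤
      2 + R2 := by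
  obtain ⟨k, hk⟩ : ∃ k, k = Nat.sqrt ⌊R2 / 16⌋₊ := ⟨_, rfl⟩
  have h1 : (k : ℝ) ^ 2 ≤ R2 / 16 :=
    le_trans (by exact_mod_cast hk ▸ Nat.sqrt_le' _) (Nat.floor_le (by positivity))
  have h2 := card_le_card_of_injOn (fun (c : TX N) i => (x i - c i).valMinAbs)
    (s := univ.filter fun c => (4 : ℝ) ^ N * ∑ i, ‖tU N N i x - tU N N i c‖ ^ 2 ≤ R2)
    (t := Fintype.piFinset fun _ => Icc (-k : ℤ) k) (fun c hc => ?_) fun c _ c' _ e =>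
      funext fun i => sub_right_injective (ZMod.valMinAbs_inj.1 (congrFun e i))
  · rw [Fintype.card_piFinset, prod_const, Int.card_Icc, card_univ, Fintype.card_fin,
      show (k : ℤ) + 1 - -k = (2 * k + 1 : ℕ) by push_cast; ring, Int.toNat_natCast] at h2
    refine (Nat.cast_le.2 h2).trans ?_
    push_cast
    nlinarith [sq_nonneg ((k : ℝ) - 1), sq_nonneg (k : ℝ)]
  · refine mem_coe.2 (Fintype.mem_piFinset.2 fun i => ?_)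
    have h3 := (mem_filter.1 (mem_coe.1 hc)).2
    rw [mul_sum] at h3
    have h4 := ((chord_two_sided N i x c).1.trans (single_le_sum
      (f := fun i => (4 : ℝ) ^ N * ‖tU N N i x - tU N N i c‖ ^ 2) (fun _ _ => by positivity)
      (mem_univ i))).trans h3
    have h5 : (x i - c i).valMinAbs.natAbs ≤ k := by
      rw [hk, Nat.le_sqrt', Nat.le_floor_iff (by positivity)]
      push_cast
      rw [Nat.cast_natAbs, Int.cast_abs, sq_abs]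
      linarith
    rw [mem_Icc, ← abs_le, ← Int.natCast_natAbs]
    exact_mod_cast h5
theorem t_ball_ge (N : ℕ) (x : TX N) (m : ℕ) (h : m < N) : (4 : ℝ) ^ m ≤
    400 * ((univ.filter fun c =>
      (4 : ℝ) ^ N * ∑ i, ‖tU N N i x - tU N N i c‖ ^ 2 ≤ 4 ^ m).card : ℝ) := by
  obtain ⟨k, hk⟩ : ∃ k, k = 2 ^ m / 9 := ⟨_, rfl⟩
  have h1 : 9 * k ≤ 2 ^ m ∧ 2 ^ m ≤ 9 * (k + 1) := by omega
  have h0 : k + 1 ≤ 2 ^ N := by
    have := Nat.pow_lt_pow_right (a := 2) (by norm_num) h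
    omega
  have h8 : (4 : ℝ) ^ m = (2 ^ m) ^ 2 := by rw [← pow_mul, mul_comm, pow_mul]; norm_num
  have a1 : 9 * (k : ℝ) ≤ 2 ^ m := by exact_mod_cast h1.1
  have a2 : (2 : ℝ) ^ m ≤ 9 * (k + 1) := by exact_mod_cast h1.2
  have h2 := card_le_card_of_injOn (fun (a : Fin 2 → ℕ) i => x i - (a i : ZMod (2 ^ N)))
    (t := univ.filter fun c => (4 : ℝ) ^ N * ∑ i, ‖tU N N i x - tU N N i c‖ ^ 2 ≤ 4 ^ m)
    (s := Fintype.piFinset fun _ => range (k + 1)) (fun a ha => ?_) fun a ha b hb e =>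
      funext fun i => ?_
  · rw [Fintype.card_piFinset, prod_const, card_range, card_univ, Fintype.card_fin] at h2
    refine le_trans ?_ (mul_le_mul_of_nonneg_left (Nat.cast_le.2 h2) (by norm_num))
    push_cast
    nlinarith [pow_le_pow_left₀ (by positivity) a2 2, sq_nonneg ((k : ℝ) + 1)]
  · refine mem_coe.2 (mem_filter.2 ⟨mem_univ _, ?_⟩)
    rw [mul_sum]
    refine (sum_le_sum fun i _ => (chord_two_sided N i x _).2.trans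
      (?_ : _ ≤ 40 * (k : ℝ) ^ 2)).trans ?_
    · have h3 : (a i : ℝ) ≤ k := by
        exact_mod_cast Nat.le_of_lt_succ (mem_range.1 (Fintype.mem_piFinset.1 (mem_coe.1 ha) i))
      have h4 := vma_sq (n := 2 ^ N) (a i)
      rw [Int.cast_natCast, Int.cast_natCast] at h4
      rw [sub_sub_cancel]
      nlinarith [pow_le_pow_left₀ (by positivity) h3 2]
    · rw [Fin.sum_univ_two]
      nlinarith [pow_le_pow_left₀ (by positivity) a1 2, sq_nonneg (k : ℝ)]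
  · have e' := congrArg ZMod.val (sub_right_injective (congrFun e i))
    rwa [ZMod.val_cast_of_lt ((mem_range.1 (Fintype.mem_piFinset.1 (mem_coe.1 ha) i)).trans_le h0),
      ZMod.val_cast_of_lt ((mem_range.1 (Fintype.mem_piFinset.1 (mem_coe.1 hb) i)).trans_le h0)]
      at e'

def torus (N : ℕ) (hN : 1 ≤ N) : Lat where
  X := TX N
  N := N
  hN := hN
  U := tU N
  norm_U := tU_norm N
  U_zero := tU_zero N
  U_succ := fun m i x _ => tU_succ N m i x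
  A := tA N
  A_symm := tA_symm N
  A_row := tA_row N
  A_loc := tA_loc N
  ball_le := t_ball_le N
  ball_ge := t_ball_ge N

end Crest.Agent.N334.G
end
end

-- ▼ part N334/Main/Defs

/-!
# Row 334, S0519 (helper49): the concrete model and the block statements

`WorldStmt`, `InitStmt`, `SwStmt`, `GainStmt`, `LinkStmt` together give `Soft.QStmt h`.
-/

set_option autoImplicit false

open MeasureTheory Finset

noncomputable section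

namespace Crest.Agent.N334.Mn

open G I Sw

/-- the data of the model at one energy and one scale -/
structure Su where
  h : ℝ
  hh : 0 < h
  E : ℝ
  η : ℝ
  η0 : 0 < η
  η1 : η ≤ 1
  N : ℕ
  hN : 1 ≤ N
  a : ℕ
  b : ℕ
  r₁ : ℕ
  r₂ : ℕ
  dvd₁ : a ∣ b
  dvd₂ : 4 * b ∣ 2 ^ N
  le₁ : r₁ + 8 ≤ a
  le₂ : r₂ + 8 ≤ b
  B₁ : (Fin 2 → ℤ) → Site h
  B₂ : (Fin 2 → ℤ) → Site h
  a0 : ℝ
  b0 : ℝ
  b0_pos : 0 < b0
  b0_le : b0 ≤ 1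
  wd₁ : (B₁ 0).wd = lawD a0 b0
  wd₂ : (B₂ 0).wd = lawD a0 b0
  supp : |a0| + b0 ≤ h
  γ₁ : ℝ
  γ₂ : ℝ
  γ₁_pos : 0 < γ₁
  γ₁_le : γ₁ ≤ b0
  γ₂_pos : 0 < γ₂
  γ₂_le : γ₂ ≤ b0

namespace Su

variable (S : Su)

/-- the torus as a lattice of the gain theorem; `S.L.X` is `Tor S.g.M` by `rfl` -/
abbrev L : G.Lat := torus S.N S.hN

/-- the geometry -/
abbrev g : Geo where
  M := 2 ^ S.N
  a := S.a
  b := S.b
  r₁ := S.r₁
  r₂ := S.r₂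
  dvd₁ := S.dvd₁
  dvd₂ := S.dvd₂
  le₁ := S.le₁
  le₂ := S.le₂

/-- the labels -/
def lab : Lab S.L.X S.h := S.g.lab S.hh S.B₁ S.B₂

/-- active laws by class -/
def mu (ν₀ ν₁ ν₂ : Measure ℂ) : S.L.X → Measure ℂ := S.g.mu ν₀ ν₁ ν₂

/-- the closed uniform law -/
def unif : Measure ℂ := lift S.η (dens (ud S.h))

/-- the smooth port law at strength `γ` -/
def port (γ : ℝ) : Measure ℂ := lift (S.η + γ) (law S.a0 S.b0)

/-- ensemble average -/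
def I (μ : S.L.X → Measure ℂ) (F : S.L.Mat → ℝ) : ℝ := Iw S.lab S.E S.η μ F

/-- initial state: everything open -/
def ini (F : S.L.Mat → ℝ) : ℝ := S.I (S.mu (lawC S.h S.η 0) (S.port S.γ₁) (S.port S.γ₂)) F

/-- state after the switch: only class 2 is open -/
def mid (F : S.L.Mat → ℝ) : ℝ := S.I (S.mu S.unif (S.port 0) (S.port S.γ₂)) F

/-- number of sites -/
def vol : ℝ := Fintype.card S.L.X

/-- range of the error kernel -/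
def D : ℝ := 42 * S.b

/-- admissible active law -/
structure Adm (ν : Measure ℂ) : Prop where
  prob : IsProbabilityMeasure ν
  dens : ν.map Complex.re ≤ ENNReal.ofReal (S.h⁻¹ + S.b0⁻¹) • (volume : Measure ℝ)
  supp : ∀ᵐ t ∂ν, |t.re| ≤ S.h ∧ ga S.η t ≤ S.h + 1

/-- bias principle for the centres `y` with `ctr y`, strengths `≤ γm` -/
def BP (ctr : S.L.X → Prop) (γm κ ε : ℝ) : Prop :=
  ∀ μ : S.L.X → Measure ℂ, (∀ x, S.Adm (μ x)) → ∀ W : S.L.Mat → ℝ, Temp S.E S.η W κ →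
    ∀ y, ctr y → ∀ γ, 0 ≤ γ → γ ≤ γm →
      BPat S.lab S.E S.η μ W y S.a0 S.b0 γ ε ε (kx S.L S.D y)

/-- lossy comparison of the sites `o` with `src o` against the centre `tg o`, open at `γm`;
`π` bounds the probability that `o` is open -/
def LC (src : S.L.X → Prop) (tg : S.L.X → S.L.X) (γm κ ℓ : ℝ) : Prop :=
  ∀ μ : S.L.X → Measure ℂ, (∀ x, S.Adm (μ x)) → ∀ W : S.L.Mat → ℝ, Temp S.E S.η W κ →
    ∀ o, src o → μ (tg o) = S.port γm → ∀ π : ℝ, 0 ≤ π →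
      μ o {t | ga S.η t ≠ 0} ≤ ENNReal.ofReal π →
      LCat S.lab S.E S.η μ W o (tg o) (π * Real.exp ℓ) (kx S.L S.D o)

/-- what the transfer engine gives -/
structure World (κ ε₁ ε₂ ℓ₁ ℓ₂ : ℝ) : Prop where
  bp₁ : S.BP S.g.ctr₁ S.γ₁ κ ε₁
  bp₂ : S.BP S.g.ctr₂ S.γ₂ κ ε₂
  lc₁ : S.LC S.g.plain S.g.c₁ S.γ₁ κ ℓ₁
  lc₂ : S.LC S.g.ctr₁ S.g.c₂ S.γ₂ κ ℓ₂
  dens : ∀ x l a, (S.lab.site x).den l a ≤ Real.exp ℓ₂

end Su

/-- mean energy of the uniform product ensemble, all active ports closed -/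
def Q0 (N : ℕ) (hN : 1 ≤ N) (h E η : ℝ) : ℝ :=
  ∫ w, En (torus N hN).r2 (Kw (torus N hN) E η w) ∂Measure.pi fun _ => lift η (dens (ud h))

/-- blocks, environments, `T.Block.bp`, `T.Env.lc` (helper86, helper14) -/
def WorldStmt : Prop :=
  ∀ h E₀ : ℝ, 0 < h → |E₀| < 4 + h → ∃ δ C : ℝ, 0 < δ ∧ 1 ≤ C ∧
    ∀ (E η κ : ℝ) (N a b r₁ r₂ : ℕ), |E - E₀| ≤ δ → 0 < η → 0 ≤ κ → 1 ≤ N →
      a ∣ b → 4 * b ∣ 2 ^ N → r₁ + 8 ≤ a → a ≤ 2 * (r₁ + 8) → r₂ + 8 ≤ b → b ≤ 2 * (r₂ + 8) →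
      C ≤ r₁ → C * Real.log r₂ ^ 3 ≤ r₁ → r₁ ^ 2 ≤ r₂ → η ≤ Real.exp (-(C * r₂)) →
      κ * (b : ℝ) ^ 2 ≤ 1 →
      ∃ S : Su, S.h = h ∧ S.E = E ∧ S.η = η ∧ S.N = N ∧ S.a = a ∧ S.b = b ∧
        S.World κ (Real.exp (-(r₁ / C))) (Real.exp (-(r₂ / C))) (C * (r₁ : ℝ) ^ 3)
          (C * (r₂ : ℝ) ^ 3)

/-- Combes-Thomas along the corridors (helper21) -/
def InitStmt : Prop :=
  ∀ h : ℝ, 0 < h → ∃ C : ℝ, 1 ≤ C ∧ ∀ S : Su, S.h = h →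
    S.ini (En S.L.r2) ≤ C * (S.b : ℝ) ^ 4 * S.vol ∧
    (∀ m, m < S.N → S.ini (En (S.L.s4 m)) ≤ C * (S.b : ℝ) ^ 6 / 16 ^ m * S.vol) ∧
    ∀ (c : S.L.X) (R2 lam : ℝ) (p : ℕ), 1 ≤ R2 → 0 ≤ lam →
      S.ini (fun K => (lam + En (S.L.wF c R2) K) ^ p) ≤ (lam + C * (S.b : ℝ) ^ 4) ^ p

/-- phases 0 and 1 (helper45) -/
def SwStmt : Prop :=
  ∃ C : ℝ, 1 ≤ C ∧ ∀ (S : Su) (κ ε₁ ε₂ ℓ₁ ℓ₂ : ℝ), S.World κ ε₁ ε₂ ℓ₁ ℓ₂ → 0 ≤ κ → 0 ≤ ε₁ →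
    (S.a : ℝ) ≤ ℓ₁ → (S.b : ℝ) ≤ ℓ₂ → ε₁ * ℓ₂ ≤ 1 →
    S.mid (En S.L.r2) ≤
      Real.exp (C * ℓ₁) * (S.ini (En S.L.r2) + (S.b : ℝ) ^ 4 * S.vol) ∧
    (∀ m, m < S.N → S.mid (En (S.L.s4 m)) ≤
      Real.exp (C * (ℓ₁ + ℓ₂)) * (S.ini (En (S.L.s4 m)) + (S.b : ℝ) ^ 6 / 16 ^ m * S.vol)) ∧
    ∀ (c : S.L.X) (R2 lam : ℝ) (p : ℕ), 1 ≤ R2 → 1 ≤ p → C * p ≤ κ * lam → C * p ≤ lam →
      C * (S.b : ℝ) ^ 4 ≤ lam → p * ℓ₂ ≤ lam →
      S.mid (fun K => (lam + En (S.L.wF c R2) K) ^ p) ≤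
        Real.exp (C * p * ℓ₁) * S.ini fun K => (lam + En (S.L.wF c R2) K) ^ p

/-- phase 2: `G.gain` in the concrete model (helper49) -/
def GainStmt : Prop :=
  ∃ (τ0 C : ℝ) (p : ℕ), 1 ≤ C ∧ 1 ≤ p ∧ ∀ τ : ℝ, τ0 ≤ τ →
    ∀ (S : Su) (κ ε₁ ε₂ ℓ₁ ℓ₂ lam : ℝ), S.World κ ε₁ ε₂ ℓ₁ ℓ₂ → 0 ≤ κ → 0 ≤ ε₂ →
    Real.exp (-τ ^ 32) ≤ S.η → S.η ≤ Real.exp (-τ ^ 32 / 2) → τ ^ 32 ≤ S.N → ℓ₂ ≤ τ ^ 16 →
    lam ≤ τ → C * p ≤ κ * lam → C * (S.b : ℝ) ^ 4 ≤ lam →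
    ε₂ * (C * (S.b : ℝ) ^ 4) ≤ 1 / τ ^ 288 →
    S.mid (En S.L.r2) ≤ τ ^ 16 * S.vol →
    (∀ m, m < S.N → S.mid (En (S.L.s4 m)) ≤ Real.exp (τ ^ 16) / 16 ^ m * S.vol) →
    (∀ (c : S.L.X) (R2 : ℝ), 1 ≤ R2 →
      S.mid (fun K => (lam + En (S.L.wF c R2) K) ^ p) ≤ τ ^ p) →
    Q0 S.N S.hN S.h S.E S.η ≤ C / τ ^ 160 * S.vol

/-- from the torus energy to the moment of the end game (helper21) -/
def LinkStmt : Prop :=
  ∃ C : ℝ, 1 ≤ C ∧ ∀ n : ℕ, ∃ N₀ : ℕ, ∀ (N : ℕ) (hN : 1 ≤ N), N₀ ≤ N → ∃ F : Soft.FinVol n,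
    ∀ h E η X : ℝ, 0 < h → 0 < η → Q0 N hN h E η ≤ X * Fintype.card (torus N hN).X →
      ∫⁻ ω, ENNReal.ofReal (η ^ 2 * F.mom h ⟨E, η⟩ ω)
        ∂Crest.MathPhysics.Anderson.siteMeasure (Fin 2 → ℤ) ≤ ENNReal.ofReal (C * X)

/-- the parameter ledger (helper24): `r₁ ~ (log τ)^(1/4)`, `r₂ ~ 300 C log τ`, `a`, `b` powers of
two; it is used with `κ = b⁻²`, `lam = √τ` -/
def LedgerStmt : Prop :=
  ∀ C : ℝ, 1 ≤ C → ∀ᶠ τ : ℝ in Filter.atTop, ∃ a b j r₁ r₂ : ℕ, a ∣ b ∧ b = 2 ^ j ∧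
    r₁ + 8 ≤ a ∧ a ≤ 2 * (r₁ + 8) ∧ r₂ + 8 ≤ b ∧ b ≤ 2 * (r₂ + 8) ∧
    C ≤ r₁ ∧ C * Real.log r₂ ^ 3 ≤ r₁ ∧ r₁ ^ 2 ≤ r₂ ∧ a ≤ r₁ ^ 3 ∧ b ≤ r₂ ^ 3 ∧
    Real.exp (-(r₁ / C)) * (C * (r₂ : ℝ) ^ 3) ≤ 1 ∧
    Real.exp (-(r₂ / C)) * (C * (b : ℝ) ^ 4) ≤ 1 / τ ^ 288 ∧
    C * (b : ℝ) ^ 6 ≤ Real.sqrt τ ∧
    2 * Real.exp (C * (r₁ : ℝ) ^ 3) ≤ Real.sqrt τ ∧
    1 ≤ τ

end Crest.Agent.N334.Mn
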