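import Crest.Agent.N334.Main.Adm
import Crest.Agent.N334.Sw.Sum
import Crest.Agent.N334.Sw.Iw
import Crest.Agent.N334.Sw.Step
import Crest.Agent.N334.I.C0
import Crest.Agent.N334.Sw.Exp
import Crest.Agent.N334.G.Trace
import Crest.Agent.N334.Sw.LocT
import Crest.Agent.N334.G.Geo2

-- ▼ part N334/Main/Sw0
section

/-!
# Row 334, S0519 (helper20): the share and bias inputs of the switch in the concrete model
-/

set_option autoImplicit false

open MeasureTheory Finset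

noncomputable section

namespace Crest.Agent.N334.Mn

open G I Sw Ad

namespace Sv

theorem num_le {A n x ℓ : ℝ} (hA : 0 ≤ A) (hx : 1 ≤ x) (hℓ : x ≤ ℓ) (hn : n ≤ (13 * x) ^ 2) :
    2 * Real.exp ℓ * (8 * n + 97 * A) ≤ Real.exp ((5410 + 194 * A) * ℓ) := by
  have h1 : x ^ 2 / 2 ≤ Real.exp ℓ := by
    have := Real.quadratic_le_exp_of_nonneg (show 0 ≤ x by linarith)
    have := Real.exp_le_exp.2 hℓ
    linarith
  have h2 : 1 ≤ Real.exp ℓ := Real.one_le_exp (by linarith)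
  have h3 : 5408 + 194 * A ≤ Real.exp ((5408 + 194 * A) * ℓ) := by
    have := Real.add_one_le_exp ((5408 + 194 * A) * ℓ)
    nlinarith
  have h4 : 2 * (8 * n + 97 * A) ≤ (5408 + 194 * A) * Real.exp ℓ := by nlinarith
  rw [show (5410 + 194 * A) * ℓ = ℓ + ((5408 + 194 * A) * ℓ + ℓ) by ring, Real.exp_add,
    Real.exp_add, mul_comm 2, mul_assoc]
  exact mul_le_mul_of_nonneg_left (h4.trans (by gcongr)) (by positivity)

theorem exists_cs {x : ℝ} (hx : 1 ≤ x) : ∃ cs : ℕ, Real.exp x ≤ 2 ^ cs ∧ (cs : ℝ) + 1 ≤ 4 * x := by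
  refine ⟨⌈2 * x⌉₊, ?_, by have := Nat.ceil_lt_add_one (show 0 ≤ 2 * x by linarith); linarith⟩
  have h1 := Nat.le_ceil (2 * x)
  have h2 := Real.log_two_gt_d9
  rw [← Real.exp_log (show (0 : ℝ) < 2 ^ ⌈2 * x⌉₊ by positivity), Real.log_pow]
  exact Real.exp_le_exp.2 (by nlinarith)

end Sv

namespace Su

variable (S : Su)

open Classical in
/-- plain sites -/
def P₀ : Finset S.L.X := univ.filter fun x => S.g.plain x

open Classical in
/-- centres of class 1 -/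
def P₁ : Finset S.L.X := univ.filter fun x => S.g.ctr₁ x

/-- the state between the phases -/
def μ₁ : S.L.X → Measure ℂ := S.mu S.unif (S.port S.γ₁) (S.port S.γ₂)

variable {S}

theorem mem_P₀ {x : S.L.X} : x ∈ S.P₀ ↔ S.g.plain x := by simp [P₀]
theorem mem_P₁ {x : S.L.X} : x ∈ S.P₁ ↔ S.g.ctr₁ x := by simp [P₁]

theorem adm_μ₁ (x : S.L.X) : S.Adm (S.μ₁ x) := adm_mu S.adm_unif S.adm_port₁ S.adm_port₂ x

instance (x : S.L.X) : IsProbabilityMeasure (S.μ₁ x) := (adm_μ₁ x).prob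

theorem ini_eq (F : S.L.Mat → ℝ) :
    S.ini F = Iw S.lab S.E S.η (rep S.P₀ S.μ₁ fun _ => lawC S.h S.η 0) F := by
  refine I_congr (fun x hx => ?_) F
  rcases hx with h | h | h
  · rw [rep, if_pos (mem_P₀.2 h), mu_plain _ _ _ h]
  · rw [rep, if_neg fun h' => (mem_P₀.1 h').not_ctr₁ h, μ₁, mu_ctr₁ _ _ _ h, mu_ctr₁ _ _ _ h]
  · rw [rep, if_neg fun h' => (mem_P₀.1 h').not_ctr₂ h, μ₁, mu_ctr₂ _ _ _ h, mu_ctr₂ _ _ _ h]

theorem rep₀_eq : (rep S.P₀ S.μ₁ fun _ => lift S.η (dens (ud S.h))) = S.μ₁ := by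
  funext x
  unfold rep; split_ifs with h
  exacts [(mu_plain _ _ _ (mem_P₀.1 h)).symm, rfl]

theorem rep₁_eq : (rep S.P₁ S.μ₁ fun _ => lift (S.η + S.γ₁) (law S.a0 S.b0)) = S.μ₁ := by
  funext x
  unfold rep; split_ifs with h
  exacts [(mu_ctr₁ _ _ _ (mem_P₁.1 h)).symm, rfl]

theorem mid_eq (F : S.L.Mat → ℝ) :
    S.mid F = Iw S.lab S.E S.η (rep S.P₁ S.μ₁ fun _ => lift S.η (law S.a0 S.b0)) F := by
  refine I_congr (fun x hx => ?_) F
  rcases hx with h | h | h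
  · rw [rep, if_neg fun h' => h.not_ctr₁ (mem_P₁.1 h'), μ₁, mu_plain _ _ _ h, mu_plain _ _ _ h]
  · rw [rep, if_pos (mem_P₁.2 h), mu_ctr₁ _ _ _ h, port_zero]
  · rw [rep, if_neg fun h' => h.not_ctr₁ (mem_P₁.1 h'), μ₁, mu_ctr₂ _ _ _ h, mu_ctr₂ _ _ _ h]

theorem D_pos : 0 < S.D := by have := S.eight_le_b; unfold D; linarith

theorem one_le_D : 1 ≤ S.D := by have := S.eight_le_b; unfold D; linarith

theorem card_fib (C : Finset S.L.X) {y : S.L.X → S.L.X} {z : S.L.X} {r : ℕ}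
    (H : ∀ o, d1 (M := 2 ^ S.N) o (y o) ≤ r) :
    ((C.filter fun o => y o = z).card : ℝ) ≤ (2 * r + 1) ^ 2 := by
  have : (C.filter fun o => y o = z).card ≤ (ball (M := 2 ^ S.N) z r).card :=
    card_le_card fun x hx => mem_ball.2 ((mem_filter.1 hx).2 ▸ H x)
  exact_mod_cast this.trans (card_ball_le (M := 2 ^ S.N) z r)

variable {κ ε₁ ε₂ ℓ₁ ℓ₂ : ℝ} (hW : S.World κ ε₁ ε₂ ℓ₁ ℓ₂) {w : S.L.P → S.L.P → ℝ}
  (hw : ∀ a b, 0 ≤ w a b) {lam : ℝ} (hl : 0 < lam) {p : ℕ} (hp : 1 ≤ p)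
  (hT : Temp S.E S.η (fun K : S.L.Mat => (lam + En w K) ^ (p - 1)) κ) {A : ℝ} (hA0 : 0 ≤ A)
  (hA : Ak (kx S.L S.D) w ≤ A * lam)

include hW hw hl hp hT hA0 hA

/-- share of the plain sites in phase 0 -/
theorem sh₀ (htri : ∀ a b c, w a c ≤ 8 * (w a b + w b c)) (ha : (S.a : ℝ) ≤ ℓ₁) {cs : ℕ}
    (hcs : Real.exp ((5410 + 194 * A) * ℓ₁) ≤ 2 ^ cs) (c : ℕ) {q : ℝ} (h0 : 0 ≤ q) (h1 : q ≤ 1) :
    Sh S.lab S.E S.η (st0 S.h S.η S.P₀ S.μ₁ c q) S.P₀ (fun K => (lam + En w K) ^ (p - 1)) w ≤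
      2 ^ cs / 2 ^ c * Iw S.lab S.E S.η (st0 S.h S.η S.P₀ S.μ₁ c q) fun K => (lam + En w K) ^ p := by
  have had := adm_st0 adm_μ₁ S.P₀ c h0 h1
  have h8 := S.eight_le_a
  refine (sh_of_LC_psi (y := S.g.c₁) (π := 2 / 2 ^ c * Real.exp ℓ₁) S.hh S.η0
    (fun x => (had x).prob) hw htri hl hp (by positivity) D_pos (by positivity)
    (fun z => card_fib _ S.g.d1_c₁_le) (fun o _ => (S.sqrt_rx_le _ _).trans ?_)
    fun o ho => hW.lc₁ _ had _ hT o (mem_P₀.1 ho) ?_ _ (by positivity) ?_).trans ?_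
  · have : (d1 (M := 2 ^ S.N) o (S.g.c₁ o) : ℝ) ≤ 2 * S.a := by exact_mod_cast S.g.d1_c₁_le o
    have := S.a_le_b
    unfold D; linarith
  · have hc := Geo.ctr₁_c₁ (mem_P₀.1 ho).1
    rw [st0, if_neg fun h' => (mem_P₀.1 h').not_ctr₁ hc]
    exact mu_ctr₁ _ _ _ hc
  · rw [st0, if_pos ho]
    exact mixC_open S.hh _ c h0 h1
  · refine mul_le_mul_of_nonneg_right ?_
      (Sw.Iw_nonneg _ _ S.η0 _ fun K _ => by have := En_nonneg hw K; positivity)
    have h2 := (Sv.num_le (n := (2 * (2 * S.a : ℕ) + 1) ^ 2) hA0 (by linarith) ha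
      (by push_cast; gcongr; linarith)).trans hcs
    have h3 : 97 * Ak (kx S.L S.D) w / lam ≤ 97 * A := by rw [div_le_iff₀ hl]; linarith
    rw [div_mul_eq_mul_div, div_mul_eq_mul_div]
    gcongr
    exact le_trans (by gcongr) h2

/-- share of the centres of class 1 in phase 1 -/
theorem sh₁ (htri : ∀ a b c, w a c ≤ 8 * (w a b + w b c)) (hb : (S.b : ℝ) ≤ ℓ₂) {q : ℝ}
    (h0 : 0 ≤ q) (h1 : q ≤ 1) :
    Sh S.lab S.E S.η (st1 S.η S.P₁ S.μ₁ (fun _ => S.a0) (fun _ => S.b0) (fun _ => S.γ₁) q) S.P₁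
      (fun K => (lam + En w K) ^ (p - 1)) w ≤
      (1 - q) * Real.exp ((5410 + 194 * A) * ℓ₂) * Iw S.lab S.E S.η
        (st1 S.η S.P₁ S.μ₁ (fun _ => S.a0) (fun _ => S.b0) (fun _ => S.γ₁) q)
        fun K => (lam + En w K) ^ p := by
  have had := adm_st1 adm_μ₁ S.P₁ S.γ₁_pos.le S.γ₁_le h0 h1
  have h8 := S.eight_le_b
  have hq := sub_nonneg.2 h1
  refine (sh_of_LC_psi (y := S.g.c₂) (π := (1 - q) * Real.exp ℓ₂) S.hh S.η0
    (fun x => (had x).prob) hw htri hl hp (by positivity) D_pos (by positivity)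
    (fun z => card_fib _ S.g.d1_c₂_le) (fun o _ => (S.sqrt_rx_le _ _).trans ?_)
    fun o ho => hW.lc₂ _ had _ hT o (mem_P₁.1 ho) ?_ _ hq ?_).trans ?_
  · have : (d1 (M := 2 ^ S.N) o (S.g.c₂ o) : ℝ) ≤ 6 * S.b := by exact_mod_cast S.g.d1_c₂_le o
    unfold D; linarith
  · have hc := Geo.ctr₂_c₂ (g := S.g) o
    rw [st1, if_neg fun h' => hc.not_ctr₁ (mem_P₁.1 h')]
    exact mu_ctr₂ _ _ _ hc
  · have := law_prob S.a0 S.b0_pos
    rw [st1, if_pos ho]
    exact mix_closed_open _ _ _ _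
  · refine mul_le_mul_of_nonneg_right ?_
      (Sw.Iw_nonneg _ _ S.η0 _ fun K _ => by have := En_nonneg hw K; positivity)
    have h2 := Sv.num_le (n := (2 * (6 * S.b : ℕ) + 1) ^ 2) hA0 (by linarith) hb
      (by push_cast; gcongr; linarith)
    have h3 : 97 * Ak (kx S.L S.D) w / lam ≤ 97 * A := by rw [div_le_iff₀ hl]; linarith
    rw [mul_assoc]
    gcongr
    refine le_trans ?_ h2
    exact mul_le_mul (by linarith [Real.exp_pos ℓ₂]) (add_le_add le_rfl h3)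
      (by have := Sm.Ak_nonneg (fun x y => (Ker.kx_pos S.L S.D x y).le) hw; positivity)
      (by positivity)

omit hA0 in
/-- bias of the centres of class 1 in phase 1 -/
theorem bi₁ (hε : 0 ≤ ε₁) {q : ℝ} (h0 : 0 ≤ q) (h1 : q < 1) :
    Bi S.lab S.E S.η (st1 S.η S.P₁ S.μ₁ (fun _ => S.a0) (fun _ => S.b0) (fun _ => S.γ₁) q) S.P₁
      (fun _ => S.a0) (fun _ => S.b0) (fun _ => S.γ₁) (fun K => (lam + En w K) ^ (p - 1)) w ≤
      (ε₁ / (1 - q) + ε₁ * A) * Iw S.lab S.E S.η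
        (st1 S.η S.P₁ S.μ₁ (fun _ => S.a0) (fun _ => S.b0) (fun _ => S.γ₁) q)
        fun K => (lam + En w K) ^ p := by
  have had := adm_st1 adm_μ₁ S.P₁ S.γ₁_pos.le S.γ₁_le h0 h1.le
  have hpr := fun x => (had x).prob
  have hq := sub_pos.2 h1
  have := law_prob S.a0 S.b0_pos
  refine (bi_of_BP_psi (ρ := (1 - q)⁻¹) S.hh S.η0 hpr hw hl hp (fun _ _ => S.b0_pos) hε hε
    (by positivity) (fun x y => (Ker.kx_pos _ _ x y).le) (fun y hy F hF hF0 => ?_)
    fun y hy => hW.bp₁ _ had _ hT y (mem_P₁.1 hy) _ S.γ₁_pos.le le_rfl).trans ?_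
  · rw [le_inv_mul_iff₀ hq]
    exact Iw_open_le _ _ S.hh S.η0 _ h0 h1.le (if_pos hy) hF hF0
  · refine mul_le_mul_of_nonneg_right ?_
      (Sw.Iw_nonneg _ _ S.η0 _ fun K _ => by have := En_nonneg hw K; positivity)
    rw [div_eq_mul_inv ε₁, mul_div_assoc]
    gcongr
    rwa [div_le_iff₀ hl]

end Su

end Crest.Agent.N334.Mn
end
end

-- ▼ part N334/Sw/Step0
section

/-!
# Row 334, S0519 SWITCH: one tick of the class-0 clock
-/

set_option autoImplicit false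

open MeasureTheory Finset Complex
open scoped ComplexConjugate

noncomputable section

namespace Crest.Agent.N334.Sw

open G I

theorem isProb_lawC {h : ℝ} (hh : 0 < h) (η : ℝ) (c : ℕ) : IsProbabilityMeasure (lawC h η c) :=
  isProb_lawC' hh η c

namespace S0

variable {s : ℂ} {γ e : ℝ}

theorem continuous_zz (hs : 0 < s.im) (hγ : 0 ≤ γ) : Continuous fun a => zz s a γ := by
  unfold zz
  exact continuous_const.div (by fun_prop) fun a => den_ne hs hγ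

theorem norm_zz_eq (s : ℂ) (a γ : ℝ) : ‖zz s a γ‖ = 1 / ‖(a : ℂ) - I * γ - s‖ := by
  rw [zz, norm_div, norm_one]

theorem den_le (s : ℂ) (a e γ γ' : ℝ) :
    ‖(e : ℂ) - I * γ - s‖ ≤ ‖(a : ℂ) - I * γ' - s‖ + |a - e| + |γ - γ'| := by
  have : (e : ℂ) - I * γ - s = ((a : ℂ) - I * γ' - s) - ((a - e : ℝ) : ℂ) - I * ((γ - γ' : ℝ) : ℂ) := by
    push_cast; ring
  rw [this]
  refine (norm_sub_le _ _).trans (add_le_add ((norm_sub_le _ _).trans ?_) ?_)
  · rw [Complex.norm_real, Real.norm_eq_abs]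
  · rw [norm_mul, Complex.norm_I, one_mul, Complex.norm_real, Real.norm_eq_abs]

theorem zz_le_mul (hs : 0 < s.im) {a a' γ' K : ℝ} (hγ : 0 ≤ γ) (hγ' : 0 ≤ γ')
    (h : ‖(a' : ℂ) - I * γ' - s‖ ≤ K * ‖(a : ℂ) - I * γ - s‖) :
    ‖zz s a γ‖ ≤ K * ‖zz s a' γ'‖ := by
  rw [norm_zz_eq, norm_zz_eq, mul_one_div, div_le_div_iff₀ (norm_pos_iff.2 (den_ne hs hγ))
    (norm_pos_iff.2 (den_ne hs hγ')), one_mul]
  exact h

theorem le_den (hs : 0 < s.im) (a : ℝ) (hγ : 0 ≤ γ) : γ ≤ ‖(a : ℂ) - I * γ - s‖ := by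
  have := Complex.abs_im_le_norm ((a : ℂ) - I * γ - s)
  simp only [sub_im, ofReal_im, mul_im, I_re, zero_mul, I_im, ofReal_re, one_mul, zero_add,
    zero_sub] at this
  rw [abs_of_nonpos (by linarith)] at this
  linarith

/-- principal value -/
theorem pv (hs : 0 < s.im) {R : ℝ} (hR : 0 ≤ R) :
    ‖∫ a in (s.re - R)..(s.re + R), zz s a 0‖ ≤ Real.pi := by
  have hc := continuous_zz hs le_rfl
  have h1 := intervalIntegral.integral_comp_sub_left (a := s.re - R) (b := s.re + R)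
    (fun a => zz s a 0) (2 * s.re)
  rw [show 2 * s.re - (s.re + R) = s.re - R by ring, show 2 * s.re - (s.re - R) = s.re + R by ring]
    at h1
  have h2 : ∀ a : ℝ, ‖zz s a 0 + zz s (2 * s.re - a) 0‖ = 2 * ((0 + s.im) * ‖zz s a 0‖ ^ 2) := by
    intro a
    have e1 : zz s (2 * s.re - a) 0 = -conj (zz s a 0) := by
      unfold zz
      rw [map_div₀, map_one, ← div_neg]
      congr 1
      apply Complex.ext <;> simp
      ring
    rw [e1, ← sub_eq_add_neg, Complex.sub_conj, ← im_zz, norm_mul, Complex.norm_I, mul_one,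
      Complex.norm_real, Real.norm_eq_abs, abs_of_nonneg]
    rw [im_zz]; positivity
  have hc' : Continuous fun a => zz s (2 * s.re - a) 0 := hc.comp (by fun_prop)
  have h3 : (2 : ℂ) * ∫ a in (s.re - R)..(s.re + R), zz s a 0 =
      ∫ a in (s.re - R)..(s.re + R), (zz s a 0 + zz s (2 * s.re - a) 0) := by
    rw [intervalIntegral.integral_add (hc.intervalIntegrable _ _) (hc'.intervalIntegrable _ _), h1,
      two_mul]
  obtain ⟨i1, i2⟩ := integral_J_zz (s := s) (γ := 0) (by linarith)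
  have h4 := intervalIntegral.norm_integral_le_integral_norm (μ := volume)
    (f := fun a => zz s a 0 + zz s (2 * s.re - a) 0) (show s.re - R ≤ s.re + R by linarith)
  simp only [h2] at h4
  rw [← h3, norm_mul, intervalIntegral.integral_const_mul,
    intervalIntegral.integral_of_le (by linarith) (f := fun a => (0 + s.im) * ‖zz s a 0‖ ^ 2)] at h4
  have h5 := setIntegral_le_integral (s := Set.Ioc (s.re - R) (s.re + R)) i1
    (Filter.Eventually.of_forall fun a => by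
      have := hs.le
      show 0 ≤ (0 + s.im) * ‖zz s a 0‖ ^ 2
      positivity)
  simp only [Complex.norm_ofNat] at h4
  linarith

/-- closing a Lipschitz profile of width comparable to the strength -/
theorem close_lip (hs : 0 < s.im) (hγ : 0 < γ) {f : ℝ → ℝ} (hc : Continuous f)
    (hf : ∀ a, |f a| ≤ 1) (hlip : ∀ a x, |f a - f x| ≤ 4 * (|a - x| / γ))
    (hsupp : ∀ a, f a ≠ 0 → |a - e| ≤ 3 * γ) :
    ‖∫ a, f a • (zz s a 0 - zz s a γ)‖ ≤ 2100 * (γ ^ 2 * ‖zz s e γ‖ ^ 2) := by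
  have c0 := continuous_zz hs le_rfl
  have c1 := continuous_zz hs hγ.le
  have hsup : ∀ x R : ℝ, |x - e| + 3 * γ < R →
      ∫ a, f a • (zz s a 0 - zz s a γ) = ∫ a in (x - R)..(x + R), f a • (zz s a 0 - zz s a γ) :=
    fun x R hR => (intervalIntegral.integral_eq_integral_of_support_subset fun a ha => by
      have h1 := abs_le.1 (hsupp a fun h0 => ha (by simp [h0]))
      have h2 := le_abs_self (x - e)
      have h3 := neg_abs_le (x - e)
      constructor <;> linarith [h1.1, h1.2]).symm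
  have hd := den_le s e e γ 0
  simp only [sub_self, abs_zero, sub_zero, add_zero, abs_of_pos hγ] at hd
  rcases le_total (4 * γ) ‖(e : ℂ) - I * (0 : ℝ) - s‖ with h1 | h1
  · rw [hsup e (4 * γ) (by simp; linarith)]
    refine (intervalIntegral.norm_integral_le_of_norm_le_const
      (C := 25 * (γ * ‖zz s e γ‖ ^ 2)) fun a _ => ?_).trans ?_
    · by_cases h0 : f a = 0
      · rw [h0, zero_smul, norm_zero]; positivity
      have h2 := den_le s a e 0 0
      simp only [sub_self, abs_zero, add_zero] at h2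
      have h3 := hsupp a h0
      have h4 : ‖zz s a 0‖ ≤ 5 * ‖zz s e γ‖ := zz_le_mul hs le_rfl hγ.le (by linarith)
      have h5 := (norm_zz_mono (a := a) hs le_rfl hγ.le).trans h4
      rw [norm_smul, norm_zz_sub hs le_rfl hγ.le, Real.norm_eq_abs, sub_zero]
      calc _ ≤ 1 * (γ * (5 * ‖zz s e γ‖) * (5 * ‖zz s e γ‖)) := by gcongr; exact hf a
        _ = _ := by ring
    · rw [show e + 4 * γ - (e - 4 * γ) = 8 * γ by ring, abs_of_pos (by positivity)]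
      nlinarith [mul_nonneg (sq_nonneg γ) (sq_nonneg ‖zz s e γ‖)]
  · have h2 : |s.re - e| ≤ 4 * γ := by
      refine le_trans ?_ h1
      have := Complex.abs_re_le_norm ((e : ℂ) - I * (0 : ℝ) - s)
      rw [abs_sub_comm]
      simpa using this
    have h3 : 1 ≤ 5 * γ * ‖zz s e γ‖ := by
      rw [norm_zz_eq, mul_one_div, le_div_iff₀ (norm_pos_iff.2 (den_ne hs hγ.le))]
      linarith
    have h4 : 84 ≤ 2100 * (γ ^ 2 * ‖zz s e γ‖ ^ 2) := by nlinarith
    refine le_trans ?_ h4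
    rw [hsup s.re (8 * γ) (by linarith)]
    have e1 : ∀ a, f a • (zz s a 0 - zz s a γ) =
        ((f a - f s.re) • zz s a 0 - f a • zz s a γ) + f s.re • zz s a 0 := fun a => by
      simp only [smul_sub, sub_smul]; ring
    simp only [e1]
    have k1 : Continuous fun a => (f a - f s.re) • zz s a 0 - f a • zz s a γ :=
      ((hc.sub continuous_const).smul c0).sub (hc.smul c1)
    have k2 : Continuous fun a => f s.re • zz s a 0 := by fun_prop
    rw [intervalIntegral.integral_add (k1.intervalIntegrable _ _) (k2.intervalIntegrable _ _),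
      intervalIntegral.integral_smul]
    have a1 := intervalIntegral.norm_integral_le_of_norm_le_const (a := s.re - 8 * γ)
      (b := s.re + 8 * γ) (f := fun a => (f a - f s.re) • zz s a 0 - f a • zz s a γ)
      (C := 5 / γ) fun a _ => by
        refine (norm_sub_le _ _).trans ?_
        rw [norm_smul, norm_smul, Real.norm_eq_abs, Real.norm_eq_abs]
        have b1 : |a - s.re| * ‖zz s a 0‖ ≤ 1 := by
          rw [norm_zz_eq, mul_one_div, div_le_one (norm_pos_iff.2 (den_ne hs le_rfl))]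
          simpa using Complex.abs_re_le_norm ((a : ℂ) - I * (0 : ℝ) - s)
        have b2 : ‖zz s a γ‖ ≤ 1 / γ := by
          rw [norm_zz_eq]
          exact one_div_le_one_div_of_le hγ (le_den hs a hγ.le)
        have b3 : |f a - f s.re| * ‖zz s a 0‖ ≤ 4 / γ :=
          calc _ ≤ 4 * (|a - s.re| / γ) * ‖zz s a 0‖ := by gcongr; exact hlip _ _
            _ = 4 / γ * (|a - s.re| * ‖zz s a 0‖) := by ring
            _ ≤ 4 / γ * 1 := by gcongr
            _ = _ := mul_one _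
        have b4 : |f a| * ‖zz s a γ‖ ≤ 1 * (1 / γ) := by gcongr; exact hf a
        rw [show 5 / γ = 4 / γ + 1 * (1 / γ) by ring]
        exact add_le_add b3 b4
    rw [show s.re + 8 * γ - (s.re - 8 * γ) = 16 * γ by ring, abs_of_pos (by positivity),
      show 5 / γ * (16 * γ) = 80 by field_simp; norm_num] at a1
    have a2 : ‖f s.re • ∫ a in (s.re - 8 * γ)..(s.re + 8 * γ), zz s a 0‖ ≤ 1 * Real.pi := by
      rw [norm_smul, Real.norm_eq_abs]
      gcongr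
      exacts [hf _, pv hs (by positivity)]
    linarith [norm_add_le (∫ a in (s.re - 8 * γ)..(s.re + 8 * γ),
      ((f a - f s.re) • zz s a 0 - f a • zz s a γ))
      (f s.re • ∫ a in (s.re - 8 * γ)..(s.re + 8 * γ), zz s a 0), Real.pi_le_four]

theorem integrable_sq (hs : 0 < s.im) (hγ : 0 ≤ γ) (ν : Measure ℝ) [IsFiniteMeasure ν] :
    Integrable (fun a => γ * ‖zz s a γ‖ ^ 2) ν := by
  have := ((bm_shz 0 hs).comp (measurable_pt (0 + γ))).integrable ν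
  simpa only [shz_pt 0 s _ hγ] using this

/-- integral of the share over an interval near `e` -/
theorem share_Icc (hs : 0 < s.im) (hγ : 0 < γ) {γ' x y D : ℝ} (h0 : γ / 2 ≤ γ') (h1 : γ' ≤ γ)
    (hD : 0 ≤ D) (hxy : x ≤ y) (hx : ∀ a ∈ Set.Icc x y, |a - e| ≤ 2 * γ) :
    D * (y - x) * γ * ‖zz s e γ‖ ^ 2 / 50 ≤
      ∫ a, γ' * ‖zz s a γ'‖ ^ 2 ∂(ENNReal.ofReal D • volume.restrict (Set.Icc x y)) ∧
    ∫ a, γ' * ‖zz s a γ'‖ ^ 2 ∂(ENNReal.ofReal D • volume.restrict (Set.Icc x y)) ≤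
      36 * (D * (y - x) * γ * ‖zz s e γ‖ ^ 2) := by
  have hγ' : 0 < γ' := by linarith
  have i1 := integrable_sq hs hγ'.le (volume.restrict (Set.Icc x y))
  rw [integral_smul_measure, ENNReal.toReal_ofReal hD, smul_eq_mul]
  have hab : |γ - γ'| ≤ γ / 2 := abs_le.2 ⟨by linarith, by linarith⟩
  have l1 : ∀ a ∈ Set.Icc x y, γ * ‖zz s e γ‖ ^ 2 / 50 ≤ γ' * ‖zz s a γ'‖ ^ 2 := fun a ha => by
    have b1 := den_le s e a γ' γ
    rw [abs_sub_comm e, abs_sub_comm γ'] at b1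
    have b2 : ‖zz s e γ‖ ≤ 5 * ‖zz s a γ'‖ :=
      zz_le_mul hs hγ.le hγ'.le (by linarith [le_den hs e hγ.le, hx a ha])
    have b3 : ‖zz s e γ‖ ^ 2 ≤ (5 * ‖zz s a γ'‖) ^ 2 := by gcongr
    nlinarith [sq_nonneg ‖zz s a γ'‖, mul_le_mul_of_nonneg_left b3 hγ.le]
  have l2 : ∀ a ∈ Set.Icc x y, γ' * ‖zz s a γ'‖ ^ 2 ≤ 36 * (γ * ‖zz s e γ‖ ^ 2) := fun a ha => by
    have b1 := den_le s a e γ γ'
    have b2 : ‖zz s a γ'‖ ≤ 6 * ‖zz s e γ‖ :=
      zz_le_mul hs hγ'.le hγ.le (by linarith [le_den hs a hγ'.le, hx a ha])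
    calc _ ≤ γ * (6 * ‖zz s e γ‖) ^ 2 := by gcongr
      _ = _ := by ring
  have m1 := setIntegral_mono_on (integrableOn_const (by simp)) i1 measurableSet_Icc l1
  have m2 := setIntegral_mono_on i1 (integrableOn_const (by simp)) measurableSet_Icc l2
  rw [setIntegral_const, Real.volume_real_Icc_of_le hxy, smul_eq_mul] at m1 m2
  constructor
  · refine le_trans (le_of_eq ?_) (mul_le_mul_of_nonneg_left m1 hD); ring
  · refine (mul_le_mul_of_nonneg_left m2 hD).trans (le_of_eq ?_); ring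

variable {h : ℝ}

/-- the scale of all shares at clock `c` -/
def mm (h : ℝ) (c : ℕ) (s : ℂ) : ℝ :=
  (h / 2 ^ c) ^ 2 / (2 * h) * (‖zz s h (h / 2 ^ c)‖ ^ 2 + ‖zz s (-h) (h / 2 ^ c)‖ ^ 2)

theorem mm_nonneg (hh : 0 < h) (c : ℕ) (s : ℂ) : 0 ≤ mm h c s := by unfold mm; positivity

theorem fin_Icc (D x y : ℝ) :
    IsFiniteMeasure (ENNReal.ofReal D • (volume : Measure ℝ).restrict (Set.Icc x y)) :=
  ⟨by simp [ENNReal.mul_lt_top]⟩

theorem share_le (hh : 0 < h) (hs : 0 < s.im) (c : ℕ) :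
    ∫ a, h / 2 ^ c * ‖zz s a (h / 2 ^ c)‖ ^ 2 ∂dens (fun a => chi h c a * ud h a) ≤
      72 * mm h c s := by
  set γ := h / 2 ^ c with hγd
  have hγ : 0 < γ := by positivity
  have f1 := fin_Icc (1 / (2 * h)) (h - 2 * γ) h
  have f2 := fin_Icc (1 / (2 * h)) (-h) (-h + 2 * γ)
  refine (integral_mono_measure (dens_chi_le hh c) (Filter.Eventually.of_forall fun a => by
    positivity) (integrable_sq hs hγ.le _)).trans ?_
  rw [integral_add_measure (integrable_sq hs hγ.le _) (integrable_sq hs hγ.le _)]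
  have a1 := (share_Icc (e := h) (x := h - 2 * γ) (y := h) (D := 1 / (2 * h)) hs hγ (by linarith)
    le_rfl (by positivity) (by linarith)
    fun a ha => abs_le.2 ⟨by linarith [ha.1], by linarith [ha.2]⟩).2
  have a2 := (share_Icc (e := -h) (x := -h) (y := -h + 2 * γ) (D := 1 / (2 * h)) hs hγ (by linarith)
    le_rfl (by positivity) (by linarith)
    fun a ha => abs_le.2 ⟨by linarith [ha.1], by linarith [ha.2]⟩).2
  refine (add_le_add a1 a2).trans (le_of_eq ?_)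
  rw [mm, ← hγd]; ring

theorem le_share (hh : 0 < h) (hs : 0 < s.im) (c c' : ℕ) (h0 : h / 2 ^ c / 2 ≤ h / 2 ^ c')
    (h1 : h / 2 ^ c' ≤ h / 2 ^ c) : mm h c s ≤
      200 * ∫ a, h / 2 ^ c' * ‖zz s a (h / 2 ^ c')‖ ^ 2 ∂dens (fun a => chi h c' a * ud h a) := by
  have hγ : 0 < h / 2 ^ c := by positivity
  have hγ' : 0 < h / 2 ^ c' := by positivity
  have := isFinite_dens hh (chi_ud_le hh c')
  have b1 := integral_mono_measure (le_dens_chi hh c').1 (Filter.Eventually.of_forall fun a => by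
    positivity) (integrable_sq hs hγ'.le _)
  have b2 := integral_mono_measure (le_dens_chi hh c').2 (Filter.Eventually.of_forall fun a => by
    positivity) (integrable_sq hs hγ'.le _)
  unfold mm
  set γ := h / 2 ^ c
  set γ' := h / 2 ^ c'
  have a1 := (share_Icc (e := h) (x := h - γ') (y := h) (D := 1 / (2 * h)) hs hγ h0 h1
    (by positivity) (by linarith) fun a ha => abs_le.2 ⟨by linarith [ha.1], by linarith [ha.2]⟩).1
  have a2 := (share_Icc (e := -h) (x := -h) (y := -h + γ') (D := 1 / (2 * h)) hs hγ h0 h1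
    (by positivity) (by linarith) fun a ha => abs_le.2 ⟨by linarith [ha.1], by linarith [ha.2]⟩).1
  have e1 : γ ^ 2 / (2 * h) * (‖zz s h γ‖ ^ 2 + ‖zz s (-h) γ‖ ^ 2) =
      100 * (1 / (2 * h) * (γ / 2) * γ * ‖zz s h γ‖ ^ 2 / 50 +
        1 / (2 * h) * (γ / 2) * γ * ‖zz s (-h) γ‖ ^ 2 / 50) := by ring
  have e2 : 1 / (2 * h) * (γ / 2) * γ * ‖zz s h γ‖ ^ 2 / 50 ≤
      1 / (2 * h) * (h - (h - γ')) * γ * ‖zz s h γ‖ ^ 2 / 50 := by gcongr; linarith
  have e3 : 1 / (2 * h) * (γ / 2) * γ * ‖zz s (-h) γ‖ ^ 2 / 50 ≤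
      1 / (2 * h) * (-h + γ' - -h) * γ * ‖zz s (-h) γ‖ ^ 2 / 50 := by gcongr; linarith
  linarith

/-- the part that closes at the tick `c` -/
def tent (h : ℝ) (c : ℕ) (a : ℝ) : ℝ := chi h c a - chi h (c + 1) a

theorem tent_nonneg (hh : 0 < h) (c : ℕ) (a : ℝ) : 0 ≤ tent h c a :=
  sub_nonneg.2 (chi_succ_le hh c a)

theorem tent_le (c : ℕ) (a : ℝ) : tent h c a ≤ chi h c a := sub_le_self _ (chi_nonneg _ _ _)

theorem continuous_tent (h : ℝ) (c : ℕ) : Continuous (tent h c) :=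
  (continuous_chi h c).sub (continuous_chi h _)


theorem tent_ud (hh : 0 < h) (c : ℕ) (a : ℝ) :
    tent h c a * ud h a = 1 / (2 * h) * tent h c a := by
  unfold ud
  split_ifs with ha
  · ring
  · have h1 : h - |a| ≤ 0 := by linarith [not_le.1 ha]
    rw [tent, chi_eq_one hh (h1.trans (by positivity)), chi_eq_one hh (h1.trans (by positivity))]
    simp

theorem tent_supp (hh : 0 < h) {c : ℕ} {a : ℝ} (ha : tent h c a ≠ 0) :
    0 < h - |a| ∧ h - |a| < 2 * (h / 2 ^ c) := by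
  refine ⟨not_le.1 fun h1 => ha ?_, lt_of_chi_ne hh fun h1 => ha ?_⟩
  · rw [tent, chi_eq_one hh (h1.trans (by positivity)), chi_eq_one hh (h1.trans (by positivity)),
      sub_self]
  · exact le_antisymm (h1 ▸ tent_le c a) (tent_nonneg hh c a)

theorem tent_lip (hh : 0 < h) (c : ℕ) (a x : ℝ) :
    |tent h c a - tent h c x| ≤ 3 * (|a - x| / (h / 2 ^ c)) := by
  have h1 := abs_le.1 (chi_lip hh c a x)
  have h2 := abs_le.1 (chi_lip hh (c + 1) a x)
  rw [half_pow, show |a - x| / (h / 2 ^ c / 2) = 2 * (|a - x| / (h / 2 ^ c)) by field_simp] at h2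
  unfold tent
  exact abs_le.2 ⟨by linarith [h1.1, h2.2], by linarith [h1.2, h2.1]⟩

/-- ramp -/
def ramp (γ a : ℝ) : ℝ := max 0 (min 1 (1 / 2 + a / γ))

theorem ramp_add (γ a : ℝ) : ramp γ a + ramp γ (-a) = 1 := by
  unfold ramp
  rw [neg_div]
  generalize a / γ = t
  simp only [max_def, min_def]
  split_ifs <;> linarith

theorem side (hh : 0 < h) (hs : 0 < s.im) (c : ℕ) {σ : ℝ} (hσ : σ = 1 ∨ σ = -1) :
    ‖∫ a, (tent h c a * ramp (h / 2 ^ c) (σ * a)) • (zz s a 0 - zz s a (h / 2 ^ c))‖ ≤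
      2100 * ((h / 2 ^ c) ^ 2 * ‖zz s (σ * h) (h / 2 ^ c)‖ ^ 2) := by
  have hγ : 0 < h / 2 ^ c := by positivity
  have r0 : ∀ a, 0 ≤ ramp (h / 2 ^ c) a := fun a => le_max_left _ _
  have r1 : ∀ a, ramp (h / 2 ^ c) a ≤ 1 := fun a => max_le zero_le_one (min_le_left _ _)
  have t1 : ∀ a, tent h c a ≤ 1 := fun a => (tent_le c a).trans (chi_le_one _ _ _)
  have hσ1 : |σ| = 1 := by rcases hσ with rfl | rfl <;> simp
  refine close_lip hs hγ ((continuous_tent h c).mul (by unfold ramp; fun_prop)) (fun a => ?_)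
    (fun a x => ?_) fun a ha => ?_
  · rw [abs_of_nonneg (mul_nonneg (tent_nonneg hh c a) (r0 _))]
    exact mul_le_one₀ (t1 a) (r0 _) (r1 _)
  · have b1 : |ramp (h / 2 ^ c) (σ * a) - ramp (h / 2 ^ c) (σ * x)| ≤ |a - x| / (h / 2 ^ c) := by
      unfold ramp
      rw [max_comm, max_comm 0]
      refine (abs_max_sub_max_le_abs _ _ _).trans ((abs_min_sub_min_le_max _ _ _ _).trans ?_)
      rw [sub_self, abs_zero]
      refine max_le (by positivity) (le_of_eq ?_)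
      rw [add_sub_add_left_eq_sub, ← sub_div, ← mul_sub, abs_div, abs_mul, hσ1, one_mul,
        abs_of_pos hγ]
    have b2 := tent_lip hh c a x
    rw [show tent h c a * ramp (h / 2 ^ c) (σ * a) - tent h c x * ramp (h / 2 ^ c) (σ * x) =
      (tent h c a - tent h c x) * ramp (h / 2 ^ c) (σ * a) +
        tent h c x * (ramp (h / 2 ^ c) (σ * a) - ramp (h / 2 ^ c) (σ * x)) by ring]
    refine (abs_add_le _ _).trans ?_
    rw [abs_mul, abs_mul, abs_of_nonneg (r0 _), abs_of_nonneg (tent_nonneg hh c x)]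
    have b3 := mul_le_of_le_one_right (abs_nonneg (tent h c a - tent h c x)) (r1 (σ * a))
    have b4 := mul_le_of_le_one_left
      (abs_nonneg (ramp (h / 2 ^ c) (σ * a) - ramp (h / 2 ^ c) (σ * x))) (t1 x)
    linarith
  · obtain ⟨b1, b2⟩ := tent_supp hh (left_ne_zero_of_mul ha)
    have b3 : -(h / 2 ^ c / 2) < σ * a := by
      by_contra b4
      refine right_ne_zero_of_mul ha (max_eq_left ((min_le_right _ _).trans ?_))
      have : σ * a / (h / 2 ^ c) ≤ -(1 / 2) := by rw [div_le_iff₀ hγ]; linarith [not_lt.1 b4]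
      linarith
    rcases hσ with rfl | rfl <;> rcases abs_cases a with b4 | b4 <;> rw [abs_le] <;>
      constructor <;> linarith [b4.1, b4.2]

theorem close_le (hh : 0 < h) (hs : 0 < s.im) (c : ℕ) :
    ‖∫ a, (zz s a 0 - zz s a (h / 2 ^ c)) ∂dens (fun a => tent h c a * ud h a)‖ ≤
      2100 * mm h c s := by
  have hγ : 0 < h / 2 ^ c := by positivity
  rw [integral_dens (f := fun a => tent h c a * ud h a)
    ((continuous_tent h c).measurable.mul (measurable_ud h)) fun a =>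
    mul_nonneg (tent_nonneg hh c a) (ud_nonneg hh a)]
  have e1 : ∀ a, (tent h c a * ud h a) • (zz s a 0 - zz s a (h / 2 ^ c)) = (1 / (2 * h)) •
      ((tent h c a * ramp (h / 2 ^ c) (1 * a)) • (zz s a 0 - zz s a (h / 2 ^ c)) +
      (tent h c a * ramp (h / 2 ^ c) (-1 * a)) • (zz s a 0 - zz s a (h / 2 ^ c))) := fun a => by
    rw [← add_smul, ← mul_add, one_mul, neg_one_mul, ramp_add, mul_one, smul_smul, tent_ud hh]
  have i1 : ∀ σ : ℝ, Integrable fun a =>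
      (tent h c a * ramp (h / 2 ^ c) (σ * a)) • (zz s a 0 - zz s a (h / 2 ^ c)) := fun σ => by
    refine Continuous.integrable_of_hasCompactSupport
      (((continuous_tent h c).mul (by unfold ramp; fun_prop)).smul
        ((continuous_zz hs le_rfl).sub (continuous_zz hs hγ.le)))
      (HasCompactSupport.intro (isCompact_Icc (a := -h) (b := h)) fun a ha => ?_)
    have : tent h c a = 0 := by
      by_contra h0
      exact ha (Set.mem_Icc.2 (abs_le.1 (by linarith [(tent_supp hh h0).1])))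
    simp [this]
  simp only [e1]
  rw [integral_smul, integral_add (i1 1) (i1 (-1)), norm_smul, Real.norm_eq_abs,
    abs_of_pos (by positivity)]
  have a1 := side hh hs c (Or.inl rfl)
  have a2 := side hh hs c (Or.inr rfl)
  rw [one_mul h] at a1
  rw [neg_one_mul h] at a2
  refine (mul_le_mul_of_nonneg_left ((norm_add_le _ _).trans (add_le_add a1 a2))
    (by positivity)).trans (le_of_eq ?_)
  unfold mm; ring

theorem integral_shz_lawC (hh : 0 < h) (hs : 0 < s.im) (η : ℝ) (c : ℕ) :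
    ∫ t, shz η s t ∂lawC h η c =
      ∫ a, h / 2 ^ c * ‖zz s a (h / 2 ^ c)‖ ^ 2 ∂dens (fun a => chi h c a * ud h a) := by
  have := isFinite_opn hh η c
  have := isFinite_cls hh η c
  rw [lawC, integral_add_measure ((bm_shz η hs).integrable _) ((bm_shz η hs).integrable _), opn,
    integral_shz_lift η s (by positivity), cls]
  have := integral_shz_lift η s le_rfl (dens fun a => (1 - chi h c a) * ud h a)
  rw [add_zero] at this
  simp [this]

end S0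

open S0 in
/-- one tick of the class-0 clock -/
theorem step_zero : ∃ C : ℝ, 1 ≤ C ∧ ∀ (h η : ℝ) (c : ℕ) (p : ℝ), 0 < h → 0 ≤ p → p ≤ 1 →
    Step η (lawC h η c) (lawC h η (c + 1)) C (mix p (lawC h η c) (lawC h η (c + 1)))
      C (mix p (lawC h η c) (lawC h η (c + 1))) := by
  refine ⟨500000, by norm_num, fun h η c p hh hp0 hp1 s β b Ψ hs hb hΨ hP => ?_⟩
  have hγ : 0 < h / 2 ^ c := by positivity
  have hγ' : 0 < h / 2 ^ (c + 1) := by positivity
  have hle : h / 2 ^ (c + 1) ≤ h / 2 ^ c := by rw [half_pow]; linarith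
  have p0 := isProb_lawC hh η c
  have p1 := isProb_lawC hh η (c + 1)
  have ht0 : ∀ a, 0 ≤ tent h c a * ud h a := fun a =>
    mul_nonneg (tent_nonneg hh c a) (ud_nonneg hh a)
  have f0 := isFinite_dens hh (chi_ud_le hh c)
  have f1 := isFinite_dens hh (chi_ud_le hh (c + 1))
  have f2 := isFinite_dens hh (f := fun a => tent h c a * ud h a) fun a =>
    (mul_le_mul_of_nonneg_right (tent_le c a) (ud_nonneg hh a)).trans (chi_ud_le hh c a)
  have f3 := isFinite_cls hh η c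
  have d1 : dens (fun a => chi h c a * ud h a) =
      dens (fun a => chi h (c + 1) a * ud h a) + dens (fun a => tent h c a * ud h a) := by
    rw [← dens_add (measurable_chi_ud h _) (chi_ud_nonneg hh _) ht0]
    congr 1; funext a; unfold tent; ring
  have d2 : cls h η (c + 1) = cls h η c + lift η (dens fun a => tent h c a * ud h a) := by
    rw [cls, cls, ← lift_add, ← dens_add (measurable_cls_ud h _) (cls_ud_nonneg hh _) ht0]
    congr 2; funext a; unfold tent; ring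
  have hm : mm h c s ≤ 200 * ∫ t, shz η s t ∂mix p (lawC h η c) (lawC h η (c + 1)) := by
    rw [mix, integral_add_measure
      (((bm_shz η hs).integrable _).smul_measure ENNReal.ofReal_ne_top)
      (((bm_shz η hs).integrable _).smul_measure ENNReal.ofReal_ne_top), integral_smul_measure,
      integral_smul_measure, ENNReal.toReal_ofReal hp0, ENNReal.toReal_ofReal (by linarith),
      integral_shz_lawC hh hs, integral_shz_lawC hh hs, smul_eq_mul, smul_eq_mul]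
    have a1 := le_share hh hs c c (by linarith) le_rfl
    have a2 := le_share hh hs c (c + 1) (half_pow h c).ge hle
    nlinarith [mul_le_mul_of_nonneg_left a1 (sub_nonneg.2 hp1), mul_le_mul_of_nonneg_left a2 hp0]
  have s1 := step_lift hs hΨ hP (dens fun a => chi h (c + 1) a * ud h a) hγ'.le hle
  have s2 := step_lift hs hΨ hP (dens fun a => tent h c a * ud h a) le_rfl hγ.le
  rw [add_zero] at s2
  have sh := share_le hh hs c
  have hsh := sh
  rw [d1, integral_add_measure (integrable_sq hs hγ.le _) (integrable_sq hs hγ.le _)] at hsh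
  rw [integral_shz_lift η s hγ.le] at s1 s2
  have n2 : 0 ≤ ∫ a, h / 2 ^ c * ‖zz s a (h / 2 ^ c)‖ ^ 2 ∂dens fun a => tent h c a * ud h a :=
    integral_nonneg fun a => by positivity
  have b1 : ‖∫ a, (zz s a (h / 2 ^ (c + 1)) - zz s a (h / 2 ^ c))
      ∂dens fun a => chi h (c + 1) a * ud h a‖ ≤ 72 * mm h c s := by
    refine (norm_integral_le_of_norm_le (integrable_sq hs hγ.le _)
      (Filter.Eventually.of_forall fun a => ?_)).trans (by linarith)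
    have b2 : ‖zz s a (h / 2 ^ (c + 1))‖ ≤ 2 * ‖zz s a (h / 2 ^ c)‖ := by
      refine zz_le_mul hs hγ'.le hγ.le ?_
      have b3 := den_le s a a (h / 2 ^ c) (h / 2 ^ (c + 1))
      have b4 := le_den hs a hγ'.le
      rw [sub_self, abs_zero, abs_of_nonneg (sub_nonneg.2 hle)] at b3
      linarith [half_pow h c]
    rw [norm_zz_sub hs hγ'.le hle]
    calc _ ≤ (h / 2 ^ c - h / 2 ^ (c + 1)) * ‖zz s a (h / 2 ^ c)‖ * (2 * ‖zz s a (h / 2 ^ c)‖) := by
          gcongr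
      _ = _ := by rw [half_pow]; ring
  have b2 := close_le hh hs c
  have iΨ : ∀ (μ : Measure ℂ) [IsFiniteMeasure μ], Integrable (fun t => Ψ t.re (ga η t)) μ :=
    fun μ _ => hΨ.integrable μ
  have e0 : ∫ t, Ψ t.re (ga η t) ∂lawC h η c =
      ∫ t, Ψ t.re (ga η t) ∂lift (η + h / 2 ^ c) (dens fun a => chi h (c + 1) a * ud h a) +
      ∫ t, Ψ t.re (ga η t) ∂lift (η + h / 2 ^ c) (dens fun a => tent h c a * ud h a) +
      ∫ t, Ψ t.re (ga η t) ∂cls h η c := by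
    rw [lawC, opn, d1, lift_add, integral_add_measure (iΨ _) (iΨ _),
      integral_add_measure (iΨ _) (iΨ _)]
  have e1 : ∫ t, Ψ t.re (ga η t) ∂lawC h η (c + 1) =
      ∫ t, Ψ t.re (ga η t) ∂lift (η + h / 2 ^ (c + 1)) (dens fun a => chi h (c + 1) a * ud h a) +
      (∫ t, Ψ t.re (ga η t) ∂cls h η c +
      ∫ t, Ψ t.re (ga η t) ∂lift η (dens fun a => tent h c a * ud h a)) := by
    rw [lawC, opn, d2, integral_add_measure (iΨ _) (iΨ _), integral_add_measure (iΨ _) (iΨ _)]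
  rw [e0, e1]
  have hβ := norm_nonneg β
  have hmm := mm_nonneg hh c s
  nlinarith [mul_le_mul_of_nonneg_left b1 hβ, mul_le_mul_of_nonneg_left b2 hβ,
    mul_le_mul_of_nonneg_left hsh hb, mul_le_mul_of_nonneg_left hm hβ,
    mul_le_mul_of_nonneg_left hm hb, mul_nonneg hβ hmm, mul_nonneg hb hmm]

/-- the class-0 law is close to the closed uniform law -/
theorem lawC_tv {h : ℝ} (hh : 0 < h) (η : ℝ) (c : ℕ) {F : ℂ → ℝ} (hF : Measurable F) {M : ℝ}
    (hM : ∀ t, |F t| ≤ M) :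
    ∫ t, F t ∂lift η (dens (ud h)) - ∫ t, F t ∂lawC h η c ≤ 4 * M / 2 ^ c := by
  have f0 := isFinite_dens hh (chi_ud_le hh c)
  have f1 := isFinite_opn hh η c
  have f2 := isFinite_cls hh η c
  have iF : ∀ (μ : Measure ℂ) [IsFiniteMeasure μ], Integrable F μ := fun μ _ =>
    (⟨hF, M, hM⟩ : BM F).integrable μ
  have hM0 : 0 ≤ M := (abs_nonneg _).trans (hM 0)
  have key : ∀ g, |∫ t, F t ∂lift g (dens fun a => chi h c a * ud h a)| ≤ M * (2 / 2 ^ c) := by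
    intro g
    refine (norm_integral_le_of_norm_le_const (f := F) (C := M)
      (Filter.Eventually.of_forall hM)).trans ?_
    refine mul_le_mul_of_nonneg_left (ENNReal.toReal_le_of_le_ofReal (by positivity) ?_) hM0
    have := opn_univ_le hh η c
    rwa [opn, lift_univ, ← lift_univ g] at this
  rw [← dens_chi_add hh c, lift_add, lawC, ← cls, integral_add_measure (iF _) (iF _),
    integral_add_measure (iF _) (iF _), opn]
  have a1 := abs_le.1 (key η)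
  have a2 := abs_le.1 (key (η + h / 2 ^ c))
  rw [show 4 * M / 2 ^ c = 2 * (M * (2 / 2 ^ c)) by ring]
  linarith [a1.2, a2.1]

end Crest.Agent.N334.Sw
end
end

-- ▼ part N334/Sw/Ph
section

/-!
# Row 334, S0519 SWITCH (helper45): the two phases for an abstract functional
-/

set_option autoImplicit false

open MeasureTheory Finset

noncomputable section

namespace Crest.Agent.N334.Sw

open G I

/-- what the flows use about a functional `Ψ` -/
structure Fn {L : G.Lat} (Ψ W : L.Mat → ℝ) (w : L.P → L.P → ℝ) (X Y : L.X → L.Mat → ℝ)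
    (c₁ l₀ : ℝ) : Prop where
  nΨ : Nice Ψ
  nW : Nice W
  nX : ∀ y, Nice (X y)
  nY : ∀ y, Nice (Y y)
  X0 : ∀ y K, IsPort K → 0 ≤ X y K
  Y0 : ∀ y K, IsPort K → 0 ≤ Y y K
  W0 : ∀ K, IsPort K → 0 ≤ W K
  w0 : ∀ p q, 0 ≤ w p q
  c1 : 1 ≤ c₁
  l0 : 0 < l₀
  lb : ∀ K, IsPort K → l₀ ≤ Ψ K
  loc : ∀ y, Loc ((y, true) : L.P) Ψ (X y) (Y y)
  sum : ∀ K, IsPort K → ∀ θ : ℝ, 0 < θ → θ ≤ 1 → ∀ S : Finset L.X,
    ∑ y ∈ S, (X y K + Y y K) ≤ c₁ * (θ * Ψ K + θ⁻¹ * ∑ y ∈ S, W K * Gam w K (y, true))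
  triv : ∀ K, IsPort K → W K * En w K ≤ Ψ K

theorem isProb_rep {X : Type} [DecidableEq X] (S : Finset X) (μ ν : X → Measure ℂ)
    [∀ x, IsProbabilityMeasure (μ x)] [∀ x, IsProbabilityMeasure (ν x)] (x : X) :
    IsProbabilityMeasure (rep S μ ν x) := by
  unfold rep; split_ifs <;> infer_instance

theorem rep_of_mem {X : Type} [DecidableEq X] {S : Finset X} (μ ν : X → Measure ℂ) {x : X}
    (hx : x ∈ S) : rep S μ ν x = ν x := if_pos hx

theorem sum_Gam_le {L : G.Lat} {w : L.P → L.P → ℝ} (hw : ∀ p q, 0 ≤ w p q) (K : L.Mat)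
    (S : Finset L.X) : ∑ y ∈ S, Gam w K (y, true) ≤ En w K := by
  have h1 : ∑ y ∈ S, Gam w K (y, true) =
      ∑ p ∈ S.map ⟨fun y => ((y, true) : L.P), fun _ _ h => congrArg Prod.fst h⟩, Gam w K p := by
    rw [sum_map]; rfl
  rw [h1]
  exact sum_le_sum_of_subset_of_nonneg (subset_univ _) fun p _ _ => Gam_nonneg hw K p

namespace Fn

variable {L : G.Lat} {Ψ W : L.Mat → ℝ} {w : L.P → L.P → ℝ} {X Y : L.X → L.Mat → ℝ} {c₁ l₀ : ℝ}
  (F : Fn Ψ W w X Y c₁ l₀) {h : ℝ} (lab : Lab L.X h) (E : ℝ) {η : ℝ} (hh : 0 < h) (hη : 0 < η)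
  (μ : L.X → Measure ℂ) [∀ x, IsProbabilityMeasure (μ x)] (S : Finset L.X)
include F hh hη

theorem Sh_eq : Sh lab E η μ S W w = Iw lab E η μ fun K => ∑ y ∈ S, W K * Gam w K (y, true) :=
  (Iw_sum lab E hh hη μ S fun _ _ => F.nW.mul (nice_Gam _ _)).symm

theorem Sh_le : Sh lab E η μ S W w ≤ Iw lab E η μ Ψ := by
  rw [F.Sh_eq lab E hh hη μ S]
  refine Iw_mono lab E hh hη μ (Nice.sum S fun _ _ => F.nW.mul (nice_Gam _ _)) F.nΨ fun K hK => ?_
  rw [← mul_sum]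
  exact (mul_le_mul_of_nonneg_left (sum_Gam_le F.w0 K S) (F.W0 K hK)).trans (F.triv K hK)

theorem Iw_lb : l₀ ≤ Iw lab E η μ Ψ := by
  have := Iw_mono lab E hh hη μ (Nice.const l₀) F.nΨ F.lb
  rwa [Iw_const lab E hh μ] at this

theorem Iw_pos : 0 ≤ Iw lab E η μ Ψ := F.l0.le.trans (F.Iw_lb lab E hh hη μ)

theorem sum_Iw {θ π : ℝ} (h0 : 0 < θ) (h1 : θ ≤ 1) (hS : Sh lab E η μ S W w ≤ π * Iw lab E η μ Ψ) :
    ∑ y ∈ S, (Iw lab E η μ (X y) + Iw lab E η μ (Y y)) ≤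
      c₁ * (θ + θ⁻¹ * π) * Iw lab E η μ Ψ := by
  have nS : Nice fun K : L.Mat => ∑ y ∈ S, W K * Gam w K (y, true) :=
    Nice.sum S fun _ _ => F.nW.mul (nice_Gam _ _)
  have h2 := Iw_mono lab E hh hη μ (Nice.sum S fun y _ => (F.nX y).add (F.nY y))
    ((Nice.const c₁).mul (((Nice.const θ).mul F.nΨ).add ((Nice.const θ⁻¹).mul nS)))
    fun K hK => F.sum K hK θ h0 h1 S
  rw [Iw_sum lab E hh hη μ S fun y _ => (F.nX y).add (F.nY y), Iw_mul,
    Iw_add lab E hh hη μ ((Nice.const θ).mul F.nΨ) ((Nice.const θ⁻¹).mul nS), Iw_mul, Iw_mul,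
    ← F.Sh_eq lab E hh hη μ S] at h2
  simp only [Iw_add lab E hh hη μ (F.nX _) (F.nY _)] at h2
  refine h2.trans ?_
  have h3 := mul_le_mul_of_nonneg_left hS (inv_pos.2 h0).le
  have h4 : 0 ≤ c₁ := zero_le_one.trans F.c1
  rw [mul_assoc c₁]
  gcongr
  linarith

/-- one tick of the class-0 clock -/
theorem tick {C : ℝ} (hC : 1 ≤ C) (c : ℕ) (hstep : ∀ p, 0 ≤ p → p ≤ 1 →
      Step η (lawC h η c) (lawC h η (c + 1)) C (mix p (lawC h η c) (lawC h η (c + 1)))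
        C (mix p (lawC h η c) (lawC h η (c + 1))))
    {θ π : ℝ} (h0 : 0 < θ) (h1 : θ ≤ 1) (hS : ∀ q, 0 ≤ q → q ≤ 1 →
      Sh lab E η (st0 h η S μ c q) S W w ≤ π * Iw lab E η (st0 h η S μ c q) Ψ) :
    Iw lab E η (rep S μ fun _ => lawC h η (c + 1)) Ψ ≤
      Real.exp (C * (c₁ * (θ + θ⁻¹ * π))) * Iw lab E η (rep S μ fun _ => lawC h η c) Ψ := by
  have := isProb_lawC hh η c
  have := isProb_lawC hh η (c + 1)
  have h2 := Iw_flow lab E hh hη μ S (fun _ => lawC h η c) (fun _ => lawC h η (c + 1)) F.nΨ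
    le_rfl zero_le_one le_rfl (R := fun p => C * (c₁ * (θ + θ⁻¹ * π)) * p)
    (r := fun _ => C * (c₁ * (θ + θ⁻¹ * π))) (by fun_prop)
    (fun p _ => by simpa using (hasDerivAt_id' p).const_mul (C * (c₁ * (θ + θ⁻¹ * π))))
    fun p hp => by
      have := isProb_mix hp.1.le hp.2.le (lawC h η c) (lawC h η (c + 1))
      have := isProb_rep S μ fun _ => mix p (lawC h η c) (lawC h η (c + 1))
      have h3 := F.sum_Iw lab E hh hη (rep S μ fun _ => mix p (lawC h η c) (lawC h η (c + 1))) S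
        h0 h1 (hS p hp.1.le hp.2.le)
      rw [mul_assoc C]
      refine le_trans ?_ (mul_le_mul_of_nonneg_left h3 (zero_le_one.trans hC))
      rw [mul_sum]
      refine sum_le_sum fun y hy => ?_
      have h4 := Iw_step lab E hh hη (rep S μ fun _ => mix p (lawC h η c) (lawC h η (c + 1))) y
        F.nΨ (F.nX y) (F.nY y) (F.X0 y) (F.Y0 y) (zero_le_one.trans hC) (zero_le_one.trans hC)
        (F.loc y) (hstep p hp.1.le hp.2.le)
      have h5 : Function.update (rep S μ fun _ => mix p (lawC h η c) (lawC h η (c + 1))) y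
          (mix p (lawC h η c) (lawC h η (c + 1))) =
          rep S μ fun _ => mix p (lawC h η c) (lawC h η (c + 1)) :=
        Function.update_eq_self_iff.2 (by rw [rep_of_mem _ _ hy])
      rw [h5] at h4
      linarith
  simpa only [mix_one, mix_zero, mul_one, mul_zero, sub_zero] using h2

/-- closing the rest of class 0 -/
theorem last : ∃ j₀ : ℕ, ∀ c, j₀ ≤ c →
    Iw lab E η (rep S μ fun _ => lift η (dens (ud h))) Ψ ≤
      Real.exp 1 * Iw lab E η (rep S μ fun _ => lawC h η c) Ψ := by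
  obtain ⟨M, hM⟩ := F.nΨ.bdd
  obtain ⟨j₀, hj⟩ := pow_unbounded_of_one_lt (S.card * (4 * |M|) / l₀) (one_lt_two (α := ℝ))
  refine ⟨j₀, fun c hc => ?_⟩
  have := isProb_lawC hh η c
  have := isProb_unif hh
  have hδ : S.card * (4 * |M| / 2 ^ c) ≤ l₀ := by
    rw [div_lt_iff₀ F.l0] at hj
    have : (2 : ℝ) ^ j₀ ≤ 2 ^ c := pow_le_pow_right₀ one_le_two hc
    rw [← mul_div_assoc, div_le_iff₀ (by positivity)]
    nlinarith [F.l0]
  have h2 := Iw_flow lab E hh hη μ S (fun _ => lawC h η c) (fun _ => lift η (dens (ud h))) F.nΨ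
    le_rfl zero_le_one le_rfl (R := fun p => p) (r := fun _ => 1) (by fun_prop)
    (fun p _ => hasDerivAt_id' p) fun p hp => by
      have := isProb_mix hp.1.le hp.2.le (lawC h η c) (lift η (dens (ud h)))
      have := isProb_rep S μ fun _ => mix p (lawC h η c) (lift η (dens (ud h)))
      rw [one_mul]
      refine le_trans ?_ (hδ.trans (F.Iw_lb lab E hh hη _))
      rw [← nsmul_eq_mul]
      refine sum_le_card_nsmul _ _ _ fun y _ => ?_
      have := Iw_crude lab E hh hη (rep S μ fun _ => mix p (lawC h η c) (lift η (dens (ud h)))) y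
        F.nΨ (δ := 4 * |M| / 2 ^ c) (by positivity)
        (fun K hK => (hM K hK).trans (le_abs_self M)) fun G hG hb => lawC_tv hh η c hG hb
      linarith
  simpa only [mix_one, mix_zero, sub_zero] using h2

end Fn

theorem phase0 : ∃ C : ℝ, 1 ≤ C ∧ ∀ {L : G.Lat} {Ψ W : L.Mat → ℝ} {w : L.P → L.P → ℝ}
    {X Y : L.X → L.Mat → ℝ} {c₁ l₀ : ℝ}, Fn Ψ W w X Y c₁ l₀ → ∀ {h : ℝ} (lab : Lab L.X h) (E : ℝ)
    {η : ℝ}, 0 < h → 0 < η → ∀ (μ : L.X → Measure ℂ) [∀ x, IsProbabilityMeasure (μ x)]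
    (S : Finset L.X) (cs : ℕ), (∀ c, cs ≤ c → ∀ q, 0 ≤ q → q ≤ 1 →
      Sh lab E η (st0 h η S μ c q) S W w ≤ 2 ^ cs / 2 ^ c * Iw lab E η (st0 h η S μ c q) Ψ) →
    Iw lab E η (rep S μ fun _ => lift η (dens (ud h))) Ψ ≤
      Real.exp (C * c₁ * (cs + 1)) * Iw lab E η (rep S μ fun _ => lawC h η 0) Ψ := by
  obtain ⟨C, hC, hstep⟩ := step_zero
  refine ⟨9 * C, by linarith, fun {L Ψ W w X Y c₁ l₀} F {h} lab E {η} hh hη μ _ S cs hS => ?_⟩
  set f : ℕ → ℝ := fun c => Iw lab E η (rep S μ fun _ => lawC h η c) Ψ with hf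
  have hc1 := F.c1
  have hA : ∀ n, f n ≤ Real.exp (C * c₁ * (2 * n)) * f 0 := fun n => by
    induction n with
    | zero => simp
    | succ n ih =>
      have h1 := F.tick lab E hh hη μ S hC n (fun p => hstep h η n p hh) one_pos le_rfl (π := 1)
        fun q h0 h1 => by
          have := isProb_lawC hh η n
          have := isProb_lawC hh η (n + 1)
          have := isProb_mix h0 h1 (lawC h η n) (lawC h η (n + 1))
          have := isProb_rep S μ fun _ => mix q (lawC h η n) (lawC h η (n + 1))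
          rw [one_mul]
          exact F.Sh_le lab E hh hη (rep S μ fun _ => mix q (lawC h η n) (lawC h η (n + 1))) S
      refine h1.trans ((mul_le_mul_of_nonneg_left ih (Real.exp_pos _).le).trans (le_of_eq ?_))
      rw [← mul_assoc, ← Real.exp_add]
      congr 2
      push_cast; ring
  have hB : ∀ j, f (cs + j) ≤ Real.exp (C * c₁ * (8 * (1 - (3 / 4) ^ j))) * f cs := fun j => by
    induction j with
    | zero => simp
    | succ j ih =>
      have h1 := F.tick lab E hh hη μ S hC (cs + j) (fun p => hstep h η _ p hh)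
        (θ := (3 / 4) ^ j) (by positivity) (pow_le_one₀ (by norm_num) (by norm_num))
        (hS (cs + j) (Nat.le_add_right _ _))
      have h2 : ((3 / 4 : ℝ) ^ j)⁻¹ * (2 ^ cs / 2 ^ (cs + j)) ≤ (3 / 4) ^ j := by
        have e : ((3 / 4 : ℝ) ^ j)⁻¹ * (2 ^ cs / 2 ^ (cs + j)) = (2 / 3) ^ j := by
          rw [pow_add, ← inv_pow, ← div_div, div_self (by positivity), one_div, ← inv_pow,
            ← mul_pow]
          norm_num
        rw [e]
        exact pow_le_pow_left₀ (by norm_num) (by norm_num) j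
      have h3 : 0 ≤ f (cs + j) := by
        have := isProb_lawC hh η (cs + j)
        have := isProb_rep S μ fun _ => lawC h η (cs + j)
        exact F.Iw_pos lab E hh hη _
      have h4 : Real.exp (C * (c₁ * ((3 / 4) ^ j + ((3 / 4 : ℝ) ^ j)⁻¹ * (2 ^ cs / 2 ^ (cs + j))))) ≤
          Real.exp (C * (c₁ * (2 * (3 / 4) ^ j))) := by
        gcongr; linarith
      refine h1.trans ((mul_le_mul h4 ih h3 (Real.exp_pos _).le).trans (le_of_eq ?_))
      rw [← mul_assoc, ← Real.exp_add]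
      congr 2
      ring
  obtain ⟨j, hj⟩ := F.last lab E hh hη μ S
  have h0 : 0 ≤ f 0 := by
    have := isProb_lawC hh η 0
    have := isProb_rep S μ fun _ => lawC h η 0
    exact F.Iw_pos lab E hh hη _
  have h1 := hj (cs + j) (Nat.le_add_left _ _)
  have h2 := (hB j).trans (mul_le_mul_of_nonneg_left (hA cs) (Real.exp_pos _).le)
  refine h1.trans ((mul_le_mul_of_nonneg_left h2 (Real.exp_pos _).le).trans ?_)
  rw [← mul_assoc, ← mul_assoc, ← Real.exp_add, ← Real.exp_add]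
  refine mul_le_mul_of_nonneg_right (Real.exp_le_exp.2 ?_) h0
  have h3 : 1 ≤ C * c₁ := one_le_mul_of_one_le_of_one_le hC hc1
  have h4 : (0 : ℝ) ≤ (3 / 4) ^ j := by positivity
  have h5 : (0 : ℝ) ≤ cs := Nat.cast_nonneg _
  nlinarith [mul_nonneg (zero_le_one.trans h3) h4, mul_nonneg (zero_le_one.trans h3) h5]

/-! ### phase 1 -/

/-- total drift of the thinning flow -/
def Dr {L : G.Lat} {h : ℝ} (lab : Lab L.X h) (E η : ℝ) (μ : L.X → Measure ℂ) (S : Finset L.X)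
    (a₀ b γ : L.X → ℝ) (Ψ : L.Mat → ℝ) (q : ℝ) : ℝ :=
  ∑ y ∈ S, (Iw lab E η (Function.update (st1 η S μ a₀ b γ q) y (lift η (law (a₀ y) (b y)))) Ψ -
    Iw lab E η (Function.update (st1 η S μ a₀ b γ q) y (lift (η + γ y) (law (a₀ y) (b y)))) Ψ)

theorem isProb_st1 {X : Type} [DecidableEq X] (η : ℝ) (S : Finset X) (μ : X → Measure ℂ)
    [∀ x, IsProbabilityMeasure (μ x)] (a₀ γ : X → ℝ) {b : X → ℝ} (hb : ∀ x, 0 < b x) {q : ℝ}
    (h0 : 0 ≤ q) (h1 : q ≤ 1) (x : X) : IsProbabilityMeasure (st1 η S μ a₀ b γ q x) := by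
  have := law_prob (a₀ x) (hb x)
  unfold st1
  split_ifs
  · exact isProb_mix h0 h1 _ _
  · infer_instance

theorem drift_open : ∃ C : ℝ, 1 ≤ C ∧ ∀ {L : G.Lat} {Ψ W : L.Mat → ℝ} {w : L.P → L.P → ℝ}
    {X Y : L.X → L.Mat → ℝ} {c₁ l₀ : ℝ}, Fn Ψ W w X Y c₁ l₀ → ∀ {h : ℝ} (lab : Lab L.X h) (E : ℝ)
    {η : ℝ}, 0 < h → 0 < η → ∀ (μ : L.X → Measure ℂ) [∀ x, IsProbabilityMeasure (μ x)]
    (S : Finset L.X) (a₀ b γ : L.X → ℝ), (∀ x, 0 < b x ∧ 0 ≤ γ x ∧ γ x ≤ b x) →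
    ∀ q θ π : ℝ, 0 ≤ q → q < 1 → 0 < θ → θ ≤ 1 →
    Sh lab E η (st1 η S μ a₀ b γ q) S W w ≤ π * Iw lab E η (st1 η S μ a₀ b γ q) Ψ →
    Dr lab E η μ S a₀ b γ Ψ q ≤
      C * (c₁ * (θ + θ⁻¹ * π)) / (1 - q) * Iw lab E η (st1 η S μ a₀ b γ q) Ψ := by
  obtain ⟨C, hC, hstep⟩ := step_open
  refine ⟨C, hC, fun {L Ψ W w X Y c₁ l₀} F {h} lab E {η} hh hη μ _ S a₀ b γ hb q θ π h0 h1 hθ hθ'
    hS => ?_⟩
  have := isProb_st1 η S μ a₀ γ (fun x => (hb x).1) h0 h1.le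
  have h3 := F.sum_Iw lab E hh hη _ S hθ hθ' hS
  have hq : 0 < 1 - q := sub_pos.2 h1
  rw [div_mul_eq_mul_div, le_div_iff₀ hq, mul_assoc C]
  refine le_trans ?_ (mul_le_mul_of_nonneg_left h3 (zero_le_one.trans hC))
  rw [Dr, sum_mul, mul_sum]
  refine sum_le_sum fun y hy => ?_
  have := law_prob (a₀ y) (hb y).1
  have h4 := Iw_step lab E hh hη (st1 η S μ a₀ b γ q) y F.nΨ (F.nX y) (F.nY y) (F.X0 y) (F.Y0 y)
    (zero_le_one.trans hC) zero_le_one (F.loc y) (hstep η (a₀ y) _ _ (hb y).1 (hb y).2.1 (hb y).2.2)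
  have hy' : st1 η S μ a₀ b γ q y =
      mix q (lift (η + γ y) (law (a₀ y) (b y))) (lift η (law (a₀ y) (b y))) := if_pos hy
  have h5 := Iw_open_le lab E hh hη _ h0 h1.le hy' (F.nX y) (F.X0 y)
  have h6 := Iw_open_le lab E hh hη _ h0 h1.le hy' (F.nY y) (F.Y0 y)
  have h7 := Iw_nonneg lab E hη (st1 η S μ a₀ b γ q) (F.Y0 y)
  have h8 := mul_le_mul_of_nonneg_left h5 (zero_le_one.trans hC)
  have h9 := mul_le_mul_of_nonneg_right h4 hq.le
  nlinarith

theorem phase1 : ∃ C : ℝ, 1 ≤ C ∧ ∀ {L : G.Lat} {Ψ W : L.Mat → ℝ} {w : L.P → L.P → ℝ}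
    {X Y : L.X → L.Mat → ℝ} {c₁ l₀ : ℝ}, Fn Ψ W w X Y c₁ l₀ → ∀ {h : ℝ} (lab : Lab L.X h) (E : ℝ)
    {η : ℝ}, 0 < h → 0 < η → ∀ (μ : L.X → Measure ℂ) [∀ x, IsProbabilityMeasure (μ x)]
    (S : Finset L.X) (a₀ b γ : L.X → ℝ), (∀ x, 0 < b x ∧ 0 ≤ γ x ∧ γ x ≤ b x) →
    ∀ A B Λ : ℝ, 0 ≤ B → 1 ≤ Λ →
    (∀ q, 0 ≤ q → q < 1 → Dr lab E η μ S a₀ b γ Ψ q ≤
      (A / (1 - q) + B) * Iw lab E η (st1 η S μ a₀ b γ q) Ψ) →
    (∀ q, 0 ≤ q → q ≤ 1 → Sh lab E η (st1 η S μ a₀ b γ q) S W w ≤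
      (1 - q) * Λ * Iw lab E η (st1 η S μ a₀ b γ q) Ψ) →
    Iw lab E η (rep S μ fun x => lift η (law (a₀ x) (b x))) Ψ ≤
      Real.exp (A * Real.log Λ + B + C * c₁) *
        Iw lab E η (rep S μ fun x => lift (η + γ x) (law (a₀ x) (b x))) Ψ := by
  obtain ⟨C, hC, hdr⟩ := drift_open
  refine ⟨4 * C, by linarith, fun {L Ψ W w X Y c₁ l₀} F {h} lab E {η} hh hη μ _ S a₀ b γ hb A B Λ
    hB hΛ hE hS => ?_⟩
  have := fun x => law_prob (a₀ x) (hb x).1
  have hΛ0 : 0 < Λ := one_pos.trans_le hΛ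
  have hi : Λ⁻¹ ≤ 1 := inv_le_one_of_one_le₀ hΛ
  have hi0 : 0 < Λ⁻¹ := inv_pos.2 hΛ0
  have h1 := Iw_flow lab E hh hη μ S (fun x => lift (η + γ x) (law (a₀ x) (b x)))
    (fun x => lift η (law (a₀ x) (b x))) F.nΨ (a := 0) (b := 1 - Λ⁻¹) le_rfl (sub_nonneg.2 hi)
    (by linarith) (R := fun q => -(A * Real.log (1 - q)) + B * q) (r := fun q => A / (1 - q) + B)
    (by
      refine ContinuousOn.add (ContinuousOn.neg (continuousOn_const.mul
        (ContinuousOn.log (by fun_prop) fun q hq => ?_))) (by fun_prop)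
      linarith [hq.2])
    (fun q hq => by
      have hq' : 1 - q ≠ 0 := by linarith [hq.2]
      have := ((((hasDerivAt_id' q).const_sub 1).log hq').const_mul A).neg.add
        ((hasDerivAt_id' q).const_mul B)
      exact this.congr_deriv (by ring))
    fun q hq => hE q hq.1.le (by linarith [hq.2])
  have h2 := Iw_flow lab E hh hη μ S (fun x => lift (η + γ x) (law (a₀ x) (b x)))
    (fun x => lift η (law (a₀ x) (b x))) F.nΨ (a := 1 - Λ⁻¹) (b := 1) (sub_nonneg.2 hi)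
    (by linarith) le_rfl (R := fun q => -(4 * (C * c₁) * Real.sqrt ((1 - q) * Λ)))
    (r := fun q => 2 * (C * c₁) * Λ / Real.sqrt ((1 - q) * Λ)) (by fun_prop)
    (fun q hq => by
      have hq' : (1 - q) * Λ ≠ 0 := (mul_pos (sub_pos.2 hq.2) hΛ0).ne'
      have := (((((hasDerivAt_id' q).const_sub 1).mul_const Λ).sqrt hq').const_mul
        (4 * (C * c₁))).neg
      exact this.congr_deriv (by ring))
    fun q hq => by
      have hq0 : 0 ≤ q := (sub_nonneg.2 hi).trans hq.1.le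
      have hp : 0 < (1 - q) * Λ := mul_pos (sub_pos.2 hq.2) hΛ0
      have hp1 : (1 - q) * Λ ≤ 1 := by
        have : (1 - q) * Λ ≤ Λ⁻¹ * Λ := by gcongr; linarith [hq.1]
        rwa [inv_mul_cancel₀ hΛ0.ne'] at this
      have hs := Real.sqrt_pos.2 hp
      have h3 := hdr F lab E hh hη μ S a₀ b γ hb q _ _ hq0 hq.2 hs (Real.sqrt_le_one.2 hp1)
        (hS q hq0 hq.2.le)
      refine h3.trans (le_of_eq ?_)
      congr 1
      have h4 := Real.mul_self_sqrt hp.le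
      have h5 : 1 - q ≠ 0 := (sub_pos.2 hq.2).ne'
      set s := Real.sqrt ((1 - q) * Λ)
      field_simp
      linear_combination c₁ * h4
  simp only [mix_one, mix_zero] at h1 h2
  refine h2.trans ((mul_le_mul_of_nonneg_left h1 (Real.exp_pos _).le).trans ?_)
  have := isProb_rep S μ fun x => lift (η + γ x) (law (a₀ x) (b x))
  rw [← mul_assoc, ← Real.exp_add]
  refine mul_le_mul_of_nonneg_right (Real.exp_le_exp.2 ?_) (F.Iw_pos lab E hh hη _)
  simp only [sub_self, zero_mul, Real.sqrt_zero, mul_zero, neg_zero, sub_sub_cancel,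
    inv_mul_cancel₀ hΛ0.ne', Real.sqrt_one, mul_one, Real.log_inv, sub_zero, Real.log_one, add_zero]
  nlinarith [mul_nonneg hB hi0.le]

end Crest.Agent.N334.Sw
end
end

-- ▼ part N334/Sw/LocM
section

/-!
# Row 334, S0519 SWITCH: one-site property of the quartic moment
-/

set_option autoImplicit false

open MeasureTheory Finset Complex
open scoped ComplexConjugate

noncomputable section

namespace Crest.Agent.N334.Sw

open G I

namespace LM

theorem tri1 (a b c : ℂ) : ‖a - c‖ ^ 4 ≤ 8 * (‖a - b‖ ^ 4 + ‖b - c‖ ^ 4) := by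
  have h1 : ‖a - c‖ ≤ ‖a - b‖ + ‖b - c‖ := norm_sub_le_norm_sub_add_norm_sub a b c
  have h2 : ‖a - c‖ ^ 4 ≤ (‖a - b‖ + ‖b - c‖) ^ 4 := pow_le_pow_left₀ (norm_nonneg _) h1 4
  have h3 := add_pow_le (norm_nonneg (a - b)) (norm_nonneg (b - c)) 4
  norm_num at h3
  linarith

theorem tri {P ι : Type} [Fintype ι] (U : ι → P → ℂ) (a b c : P) :
    w4 U a c ≤ 8 * (w4 U a b + w4 U b c) := by
  simp only [w4, ← sum_add_distrib, mul_sum]
  exact sum_le_sum fun i _ => tri1 _ _ _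

/-- the quartic weight of one function -/
def w1 {P : Type} (U : P → ℂ) (p q : P) : ℝ := ‖U p - U q‖ ^ 4

theorem w1_symm {P : Type} (U : P → ℂ) (p q : P) : w1 U p q = w1 U q p := by
  rw [w1, w1, norm_sub_rev]

theorem w1_self {P : Type} (U : P → ℂ) (p : P) : w1 U p p = 0 := by simp [w1]

theorem w1_nonneg {P : Type} (U : P → ℂ) (p q : P) : 0 ≤ w1 U p q := by unfold w1; positivity

theorem w4_eq {P ι : Type} [Fintype ι] (U : ι → P → ℂ) (p q : P) :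
    w4 U p q = ∑ i, w1 (U i) p q := rfl

theorem w4_symm {P ι : Type} [Fintype ι] (U : ι → P → ℂ) (p q : P) : w4 U p q = w4 U q p :=
  sum_congr rfl fun i _ => w1_symm (U i) p q

theorem w4_self {P ι : Type} [Fintype ι] (U : ι → P → ℂ) (p : P) : w4 U p p = 0 := by simp [w4]

theorem w4_nonneg {P ι : Type} [Fintype ι] (U : ι → P → ℂ) (p q : P) : 0 ≤ w4 U p q :=
  sum_nonneg fun i _ => w1_nonneg (U i) p q

variable {P : Type} [Fintype P] [DecidableEq P]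

omit [DecidableEq P] in
theorem Gam_w4 {ι : Type} [Fintype ι] (U : ι → P → ℂ) (K : P → P → ℂ) (y : P) :
    Gam (w4 U) K y = ∑ i, Gam (w1 (U i)) K y := by
  simp only [Gam, w4_eq, mul_sum]
  exact sum_comm

omit [DecidableEq P] in
theorem En_w4 {ι : Type} [Fintype ι] (U : ι → P → ℂ) (K : P → P → ℂ) :
    En (w4 U) K = ∑ i, En (w1 (U i)) K := by
  simp only [En, Gam_w4]
  exact sum_comm

variable {y : P} (c : Cav y)

theorem Th_w4 {ι : Type} [Fintype ι] (U : ι → P → ℂ) : Th c (w4 U) = ∑ i, Th c (w1 (U i)) := by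
  simp only [Th, w4_eq, Complex.ofReal_sum, mul_sum]
  rw [sum_congr rfl fun p _ => sum_comm, sum_comm]

theorem Bb_le {w : P → P → ℝ} (hs : ∀ p q, w p q = w q p)
    (ht : ∀ p q, w p q ≤ 8 * (w p y + w y q)) : Bb c w ≤ 16 * c.s.im * c.V w := by
  have h1 : Bb c w ≤ ∑ p, ∑ q, (8 * ((‖c.rho p‖ ^ 2 * w y p) * ‖c.rho q‖ ^ 2) +
      8 * (‖c.rho p‖ ^ 2 * (‖c.rho q‖ ^ 2 * w y q))) := by
    refine sum_le_sum fun p _ => sum_le_sum fun q _ => ?_
    have := mul_le_mul_of_nonneg_left (ht p q)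
      (show 0 ≤ ‖c.rho p‖ ^ 2 * ‖c.rho q‖ ^ 2 by positivity)
    rw [hs p y] at this
    linarith
  simp only [sum_add_distrib, ← mul_sum, ← sum_mul] at h1
  rw [c.im_s, Cav.V]
  linarith

theorem K_y (a γ : ℝ) (p : P) :
    c.K a γ p y = 2 * I * c.z a γ * c.vec γ p * (Real.sqrt γ : ℂ) := by
  simp [Cav.K, c.K0_y, Cav.vec]

theorem Th3_K (U : P → ℂ) (a : ℝ) {γ : ℝ} (hγ : 0 ≤ γ) :
    Th3 (fun _ => 1) U (c.K a γ) y = -4 * γ * c.z a γ ^ 2 *
      (Th c (w1 U) - 2 * I * conj (c.z a γ) * ((Bb c (w1 U) + 2 * γ * c.V (w1 U) : ℝ) : ℂ)) := by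
  have hsq : (Real.sqrt γ : ℂ) * (Real.sqrt γ : ℂ) = γ := by
    rw [← Complex.ofReal_mul, Real.mul_self_sqrt hγ]
  have e : ∀ p q, (((fun _ => 1 : P → ℝ) p : ℝ) : ℂ) * conj (c.K a γ p q) * c.K a γ p y *
      c.K a γ q y * ((‖U p - U q‖ ^ 4 : ℝ) : ℂ) = -4 * γ * c.z a γ ^ 2 *
      (conj (c.K0 p q) * c.rho p * c.rho q * (w1 U p q : ℂ) - 2 * I * conj (c.z a γ) *
        ((‖c.vec γ p‖ ^ 2 * ‖c.vec γ q‖ ^ 2 * w1 U p q : ℝ) : ℂ)) := by
    intro p q
    rw [← K0_vec c γ p q, K_y, K_y]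
    have h1 : conj (c.K a γ p q) = conj (c.K0 p q) -
        2 * I * conj (c.z a γ) * conj (c.vec γ p) * conj (c.vec γ q) := by
      simp only [Cav.K, map_add, map_mul, Complex.conj_I, map_ofNat]; ring
    have h2 : ((‖c.vec γ p‖ ^ 2 * ‖c.vec γ q‖ ^ 2 * w1 U p q : ℝ) : ℂ) =
        (conj (c.vec γ p) * c.vec γ p) * (conj (c.vec γ q) * c.vec γ q) * (w1 U p q : ℂ) := by
      rw [Complex.conj_mul', Complex.conj_mul']; push_cast; ring
    rw [h1, h2, ← hsq]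
    change _ * (w1 U p q : ℂ) = _
    have hI := Complex.I_mul_I
    push_cast
    linear_combination (4 * c.z a γ ^ 2 * (Real.sqrt γ : ℂ) ^ 2 * c.vec γ p * c.vec γ q *
      (w1 U p q : ℂ) * (conj (c.K0 p q) -
        2 * I * conj (c.z a γ) * conj (c.vec γ p) * conj (c.vec γ q))) * hI
  rw [← sum_vec_vec c (w1_symm U) (w1_self U y) hγ, Th3, Th]
  simp only [e, ← mul_sum, sum_sub_distrib, Complex.ofReal_sum]

theorem Th_le (U : P → ℂ) (a : ℝ) {γ : ℝ} (hγ : 0 ≤ γ) :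
    4 * ‖Th c (w1 U)‖ * (γ * ‖c.z a γ‖ ^ 2) ≤
      ‖Th3 (fun _ => 1) U (c.K a γ) y‖ + 32 * Gam (w1 U) (c.K a γ) y := by
  have hV := V_nonneg c (w1_nonneg U)
  have hB := Bb_nonneg c (w1_nonneg U)
  have hB' := Bb_le c (w1_symm U) fun p q => tri1 (U p) (U y) (U q)
  have hz : (γ + c.s.im) * ‖c.z a γ‖ ≤ 1 := norm_zz_le (by linarith [c.s_pos]) a
  set R : ℝ := Bb c (w1 U) + 2 * γ * c.V (w1 U) with hR
  have hR0 : 0 ≤ R := by positivity
  have hR1 : R ≤ 16 * (γ + c.s.im) * c.V (w1 U) := by nlinarith [mul_nonneg hγ hV]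
  have h1 : ‖2 * I * conj (c.z a γ) * (R : ℂ)‖ ≤ 32 * c.V (w1 U) := by
    simp only [norm_mul, Complex.norm_I, Complex.norm_ofNat, Complex.norm_conj, Complex.norm_real,
      Real.norm_eq_abs, abs_of_nonneg hR0]
    calc 2 * 1 * ‖c.z a γ‖ * R ≤ 2 * 1 * ‖c.z a γ‖ * (16 * (γ + c.s.im) * c.V (w1 U)) := by gcongr
      _ = 32 * c.V (w1 U) * ((γ + c.s.im) * ‖c.z a γ‖) := by ring
      _ ≤ 32 * c.V (w1 U) * 1 := by gcongr
      _ = _ := mul_one _
  have h2 : ‖Th c (w1 U)‖ ≤ ‖Th c (w1 U) - 2 * I * conj (c.z a γ) * (R : ℂ)‖ +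
      32 * c.V (w1 U) := by
    have := norm_add_le (Th c (w1 U) - 2 * I * conj (c.z a γ) * (R : ℂ))
      (2 * I * conj (c.z a γ) * (R : ℂ))
    rw [sub_add_cancel] at this
    linarith
  rw [Th3_K c U a hγ, c.Gam_y a γ hγ (w1_self U y), ← hR]
  simp only [norm_mul, norm_neg, Complex.norm_ofNat, norm_pow, Complex.norm_real, Real.norm_eq_abs,
    abs_of_nonneg hγ]
  have h3 := mul_le_mul_of_nonneg_left h2 (show 0 ≤ 4 * γ * ‖c.z a γ‖ ^ 2 by positivity)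
  linarith

theorem le_split {x G θ : ℝ} (hθ : 0 < θ) (hG : 0 ≤ G) (h : G = 0 → x = 0) :
    x ≤ θ * (x ^ 2 / G) + θ⁻¹ * G := by
  rcases hG.eq_or_lt with h0 | h0
  · rw [h h0.symm, ← h0]; simp
  · have e : θ * (x ^ 2 / G) + θ⁻¹ * G - x = ((θ * x - G) ^ 2 + θ * x * G) / (θ * G) := by
      field_simp; ring
    have h1 : 0 ≤ (θ * x - G) ^ 2 + θ * x * G := by
      nlinarith [sq_nonneg (θ * x - G / 2), sq_nonneg G]
    have h2 : 0 ≤ ((θ * x - G) ^ 2 + θ * x * G) / (θ * G) := by positivity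
    linarith

end LM

open LM in
theorem locM : ∃ C : ℝ, 1 ≤ C ∧ ∀ (P : Type) [Fintype P] [DecidableEq P] (y : P)
    (ι : Type) [Fintype ι] (U : ι → P → ℂ) (lam : ℝ),
    Loc y (fun K => lam + En (w4 U) K)
      (fun K => ∑ i, ‖Th3 (fun _ => 1) (U i) K y‖ + C * Gam (w4 U) K y)
      (fun K => C * Gam (w4 U) K y) := by
  refine ⟨48, by norm_num, fun P _ _ y ι _ U lam c => ?_⟩
  have hV := V_nonneg c (w4_nonneg U)
  have hB := Bb_le c (w4_symm U) fun p q => tri U p y q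
  refine ⟨4 * I * (Th c (w4 U) - 2 * c.V (w4 U)) - 56 * I * c.V (w4 U), 56 * c.V (w4 U),
    by positivity, fun a γ γ' h0 h => ?_, fun a γ hγ => ?_, fun a γ hγ => ?_⟩
  · beta_reduce
    rw [En_K c (w4_symm U) (w4_self U y) a h0, En_K c (w4_symm U) (w4_self U y) a (h0.trans h)]
    have h1 := im_sq_sub_le' (a := a) c.s_pos h0 h
    have h2 := sq_zz_mono (a := a) c.s_pos h0 h
    have h3 : ((4 * I * (Th c (w4 U) - 2 * c.V (w4 U)) - 56 * I * c.V (w4 U)) *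
        (zz c.s a γ' - zz c.s a γ)).re =
        (4 * I * (Th c (w4 U) - 2 * c.V (w4 U)) * zz c.s a γ').re -
          (4 * I * (Th c (w4 U) - 2 * c.V (w4 U)) * zz c.s a γ).re +
          56 * c.V (w4 U) * (zz c.s a γ' - zz c.s a γ).im := by
      have : (4 * I * (Th c (w4 U) - 2 * c.V (w4 U)) - 56 * I * c.V (w4 U)) *
          (zz c.s a γ' - zz c.s a γ) =
          4 * I * (Th c (w4 U) - 2 * c.V (w4 U)) * zz c.s a γ' -
            4 * I * (Th c (w4 U) - 2 * c.V (w4 U)) * zz c.s a γ +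
            ((56 * c.V (w4 U) : ℝ) : ℂ) * (-I * (zz c.s a γ' - zz c.s a γ)) := by
        push_cast; ring
      rw [this, Complex.add_re, Complex.sub_re, Complex.re_ofReal_mul]
      simp
    rw [h3]
    simp only [Cav.z]
    have h4 := mul_le_mul_of_nonneg_left h1 (show 0 ≤ 56 * c.V (w4 U) by positivity)
    have h5 := mul_le_mul_of_nonneg_right hB (sub_nonneg.2 h2)
    nlinarith
  · have h1 : ‖4 * I * (Th c (w4 U) - 2 * c.V (w4 U)) - 56 * I * c.V (w4 U)‖ ≤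
        ∑ i, 4 * ‖Th c (w1 (U i))‖ + 64 * c.V (w4 U) := by
      have e : 4 * I * (Th c (w4 U) - 2 * c.V (w4 U)) - 56 * I * c.V (w4 U) =
          4 * I * Th c (w4 U) - I * ((64 * c.V (w4 U) : ℝ) : ℂ) := by push_cast; ring
      rw [e]
      refine (norm_sub_le _ _).trans ?_
      have h2 : ‖Th c (w4 U)‖ ≤ ∑ i, ‖Th c (w1 (U i))‖ := by
        rw [Th_w4]; exact norm_sum_le _ _
      rw [norm_mul, norm_mul, norm_mul, Complex.norm_I, Complex.norm_real, Real.norm_eq_abs,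
        abs_of_nonneg (by positivity), ← mul_sum, Complex.norm_ofNat]
      linarith
    have h2 := mul_le_mul_of_nonneg_right h1 (show 0 ≤ γ * ‖c.z a γ‖ ^ 2 by positivity)
    have h3 : ∑ i, 4 * ‖Th c (w1 (U i))‖ * (γ * ‖c.z a γ‖ ^ 2) ≤
        ∑ i, (‖Th3 (fun _ => 1) (U i) (c.K a γ) y‖ + 32 * Gam (w1 (U i)) (c.K a γ) y) :=
      sum_le_sum fun i _ => Th_le c (U i) a hγ
    rw [sum_add_distrib, ← mul_sum, ← Gam_w4, ← sum_mul] at h3
    have h4 := c.Gam_y a γ hγ (w := w4 U) (w4_self U y)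
    beta_reduce
    nlinarith
  · beta_reduce
    rw [c.Gam_y a γ hγ (w := w4 U) (w4_self U y)]
    have : 0 ≤ γ * ‖c.z a γ‖ ^ 2 * c.V (w4 U) := by positivity
    nlinarith

theorem nice_Th3 {P : Type} [Fintype P] [DecidableEq P] (h : P → ℝ) (U : P → ℂ) (y : P) :
    Nice fun K => ‖Th3 h U K y‖ := by
  refine ⟨?_, ∑ p, ∑ q, |h p| * 2 * 2 * 2 * ‖U p - U q‖ ^ 4, fun K hK => ?_⟩
  · unfold Th3
    fun_prop
  · rw [abs_of_nonneg (norm_nonneg _), Th3]
    refine (norm_sum_le _ _).trans (sum_le_sum fun p _ => (norm_sum_le _ _).trans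
      (sum_le_sum fun q _ => ?_))
    simp only [norm_mul, Complex.norm_real, Real.norm_eq_abs, Complex.norm_conj]
    rw [abs_of_nonneg (show 0 ≤ ‖U p - U q‖ ^ 4 by positivity)]
    have h1 := hK.norm_le p q
    have h2 := hK.norm_le p y
    have h3 := hK.norm_le q y
    gcongr

open LM in
theorem sumM : ∃ C : ℝ, 1 ≤ C ∧ ∀ (P : Type) [Fintype P] [DecidableEq P]
    (ι : Type) [Fintype ι] (U : ι → P → ℂ), (∀ i p, ‖U i p‖ = 1) →
    ∀ (K : P → P → ℂ), IsPort K → ∀ (θ : ℝ), 0 < θ → ∀ (S : Finset P),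
    ∑ y ∈ S, ∑ i, ‖Th3 (fun _ => 1) (U i) K y‖ ≤
      C * θ * En (w4 U) K + θ⁻¹ * ∑ y ∈ S, Gam (w4 U) K y := by
  obtain ⟨C, hC, H⟩ := trace3
  refine ⟨1 + C, by linarith, fun P _ _ ι _ U hU K hK θ hθ S => ?_⟩
  have key : ∀ i, ∑ y ∈ S, ‖Th3 (fun _ => 1) (U i) K y‖ ≤
      (1 + C) * θ * En (w1 (U i)) K + θ⁻¹ * ∑ y ∈ S, Gam (w1 (U i)) K y := by
    intro i
    obtain ⟨h1, h2⟩ := H P K hK (U i) (fun _ => 1) 1 (hU i) (fun _ => by simp)
    change ∀ y, Gam (w1 (U i)) K y = 0 → _ at h1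
    change ∑ y, ‖Th3 (fun _ => 1) (U i) K y‖ ^ 2 / Gam (w1 (U i)) K y ≤
      C * 1 ^ 2 * En (w1 (U i)) K at h2
    have hG := fun y => Gam_nonneg (w1_nonneg (U i)) K y
    have h3 : ∑ y ∈ S, ‖Th3 (fun _ => 1) (U i) K y‖ ≤
        ∑ y ∈ S, (θ * (‖Th3 (fun _ => 1) (U i) K y‖ ^ 2 / Gam (w1 (U i)) K y) +
          θ⁻¹ * Gam (w1 (U i)) K y) :=
      sum_le_sum fun y _ => le_split hθ (hG y) fun h => by rw [h1 y h, norm_zero]
    have h4 : ∑ y ∈ S, ‖Th3 (fun _ => 1) (U i) K y‖ ^ 2 / Gam (w1 (U i)) K y ≤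
        ∑ y, ‖Th3 (fun _ => 1) (U i) K y‖ ^ 2 / Gam (w1 (U i)) K y :=
      sum_le_sum_of_subset_of_nonneg (subset_univ S) fun y _ _ => div_nonneg (sq_nonneg _) (hG y)
    rw [sum_add_distrib, ← mul_sum, ← mul_sum] at h3
    have h5 := mul_le_mul_of_nonneg_left (h4.trans h2) hθ.le
    have h6 := mul_nonneg hθ.le (En_nonneg (w1_nonneg (U i)) K)
    nlinarith
  rw [sum_comm, En_w4, mul_sum]
  simp only [Gam_w4]
  rw [sum_comm (s := S), mul_sum, ← sum_add_distrib]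
  exact sum_le_sum fun i _ => key i

theorem w4_tri {P ι : Type} [Fintype ι] (U : ι → P → ℂ) (a b c : P) :
    w4 U a c ≤ 8 * (w4 U a b + w4 U b c) := LM.tri U a b c

end Crest.Agent.N334.Sw
end
end

-- ▼ part N334/Sw/Main
section

/-!
# Row 334, S0519 SWITCH (helper45): transport of the energies through phases 0 and 1
-/

set_option autoImplicit false

open MeasureTheory Finset

noncomputable section

namespace Crest.Agent.N334.Sw

open G I

theorem fnT : ∃ C : ℝ, 1 ≤ C ∧ ∀ (L : G.Lat) (ι : Type) [Fintype ι] (Φ : ι → L.P → ℝ) (D lam : ℝ)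
    (p : ℕ), 1 ≤ p → 0 < lam → (∀ a b, wt Φ a b ≤ D) → C * ((p - 1) * D) ≤ lam →
    Fn (L := L) (fun K => (lam + En (wt Φ) K) ^ p) (fun K => (lam + En (wt Φ) K) ^ (p - 1)) (wt Φ)
      (fun y K => C * p * ((lam + En (wt Φ) K) ^ (p - 1) * Gam (wt Φ) K (y, true)))
      (fun y K => C * p * ((p - 1) * D / lam) *
        ((lam + En (wt Φ) K) ^ (p - 1) * Gam (wt Φ) K (y, true))) (2 * C * p) (lam ^ p) := by
  obtain ⟨C, hC, H⟩ := locT
  refine ⟨C, hC, fun L ι _ Φ D lam p hp hl hD hCl => ?_⟩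
  have hp' : (1 : ℝ) ≤ p := by exact_mod_cast hp
  have hx : ∀ K : L.Mat, lam ≤ lam + En (wt Φ) K := fun K =>
    le_add_of_nonneg_right (En_nonneg (wt_nonneg Φ) _)
  have hW : ∀ K : L.Mat, 0 ≤ (lam + En (wt Φ) K) ^ (p - 1) := fun K =>
    pow_nonneg (hl.le.trans (hx K)) _
  have hG : ∀ (K : L.Mat) (y : L.X),
      0 ≤ (lam + En (wt Φ) K) ^ (p - 1) * Gam (wt Φ) K (y, true) := fun K y =>
    mul_nonneg (hW K) (Gam_nonneg (wt_nonneg Φ) _ _)
  have nW : Nice fun K : L.Mat => (lam + En (wt Φ) K) ^ (p - 1) :=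
    ((Nice.const lam).add (nice_En _)).pow _
  have ht : ∀ y : L.X, 0 ≤ (p - 1) * D / lam ∧ (p - 1) * D / lam ≤ 1 := fun y => by
    have hD0 : 0 ≤ D := (wt_self Φ (y, true)).symm.le.trans (hD _ _)
    have h1 : 0 ≤ (p - 1) * D := mul_nonneg (sub_nonneg.2 hp') hD0
    exact ⟨div_nonneg h1 hl.le, (div_le_one hl).2 (by nlinarith)⟩
  have hCp : 0 ≤ C * p := by positivity
  refine ⟨((Nice.const lam).add (nice_En _)).pow _, nW,
    fun y => (Nice.const _).mul (nW.mul (nice_Gam _ _)),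
    fun y => (Nice.const _).mul (nW.mul (nice_Gam _ _)), fun y K _ => mul_nonneg hCp (hG K y),
    fun y K _ => mul_nonneg (mul_nonneg hCp (ht y).1) (hG K y), fun K _ => hW K, wt_nonneg Φ,
    by nlinarith, pow_pos hl p, fun K _ => pow_le_pow_left₀ hl.le (hx K) p,
    fun y => H _ _ ι Φ D lam p hp hl hD hCl, fun K _ θ h0 h1 S => ?_, fun K _ => ?_⟩
  · have h2 : ∑ y ∈ S, (C * p * ((lam + En (wt Φ) K) ^ (p - 1) * Gam (wt Φ) K (y, true)) +
        C * p * ((p - 1) * D / lam) * ((lam + En (wt Φ) K) ^ (p - 1) * Gam (wt Φ) K (y, true))) ≤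
        2 * C * p * ∑ y ∈ S, (lam + En (wt Φ) K) ^ (p - 1) * Gam (wt Φ) K (y, true) := by
      rw [mul_sum]
      refine sum_le_sum fun y _ => ?_
      have := mul_le_mul_of_nonneg_left (ht y).2 (mul_nonneg hCp (hG K y))
      nlinarith
    refine h2.trans (mul_le_mul_of_nonneg_left ?_ (by positivity))
    have h3 : 0 ≤ ∑ y ∈ S, (lam + En (wt Φ) K) ^ (p - 1) * Gam (wt Φ) K (y, true) :=
      sum_nonneg fun y _ => hG K y
    have h4 : 1 ≤ θ⁻¹ := (one_le_inv₀ h0).2 h1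
    have h5 : 0 ≤ θ * (lam + En (wt Φ) K) ^ p :=
      mul_nonneg h0.le (pow_nonneg (hl.le.trans (hx K)) _)
    nlinarith
  · obtain ⟨n, rfl⟩ : ∃ n, p = n + 1 := ⟨p - 1, by omega⟩
    rw [Nat.add_sub_cancel, pow_succ]
    exact mul_le_mul_of_nonneg_left (le_add_of_nonneg_left hl.le)
      (pow_nonneg (hl.le.trans (hx K)) _)

theorem s4_eq (L : G.Lat) (m : ℕ) : L.s4 m = w4 fun i (p : L.P) => L.U (m + 1) i p.1 := by
  funext p q
  simp only [G.Lat.s4, G.Lat.del, w4, ← pow_mul]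

theorem fnM : ∃ C : ℝ, 1 ≤ C ∧ ∀ (L : G.Lat) (m : ℕ) (lam : ℝ), 0 < lam → ∃ X Y,
    Fn (L := L) (fun K => lam + En (L.s4 m) K) (fun _ => 1) (L.s4 m) X Y C lam := by
  obtain ⟨C, hC, H⟩ := locM
  obtain ⟨C', hC', H'⟩ := sumM
  refine ⟨C' + 2 * C + 1, by linarith, fun L m lam hl => ?_⟩
  rw [s4_eq]
  set U : Fin 2 → L.P → ℂ := fun i p => L.U (m + 1) i p.1
  have hw : ∀ p q, 0 ≤ w4 U p q := fun p q => sum_nonneg fun _ _ => by positivity
  have hC0 : 0 ≤ C := zero_le_one.trans hC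
  refine ⟨fun y K => ∑ i, ‖Th3 (fun _ => 1) (U i) K (y, true)‖ + C * Gam (w4 U) K (y, true),
    fun y K => C * Gam (w4 U) K (y, true), (Nice.const lam).add (nice_En _), Nice.const 1,
    fun y => (Nice.sum _ fun i _ => nice_Th3 _ _ _).add ((Nice.const C).mul (nice_Gam _ _)),
    fun y => (Nice.const C).mul (nice_Gam _ _),
    fun y K _ => add_nonneg (sum_nonneg fun _ _ => norm_nonneg _)
      (mul_nonneg hC0 (Gam_nonneg hw _ _)),
    fun y K _ => mul_nonneg hC0 (Gam_nonneg hw _ _), fun _ _ => zero_le_one, hw, by linarith, hl,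
    fun K _ => le_add_of_nonneg_right (En_nonneg hw _), fun y => H _ _ _ U lam,
    fun K hK θ h0 h1 S => ?_, fun K _ => by rw [one_mul]; exact le_add_of_nonneg_left hl.le⟩
  have h2 := H' L.P (Fin 2) U (fun i p => L.norm_U _ _ _) K hK θ h0
    (S.map ⟨fun y => ((y, true) : L.P), fun _ _ h => congrArg Prod.fst h⟩)
  rw [sum_map, sum_map] at h2
  simp only [Function.Embedding.coeFn_mk] at h2
  simp only [sum_add_distrib, ← mul_sum, one_mul]
  have h3 : 0 ≤ ∑ y ∈ S, Gam (w4 U) K (y, true) := sum_nonneg fun _ _ => Gam_nonneg hw _ _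
  have h4 : 1 ≤ θ⁻¹ := (one_le_inv₀ h0).2 h1
  have h5 := En_nonneg hw K
  have h6 : ∑ y ∈ S, Gam (w4 U) K (y, true) ≤ θ⁻¹ * ∑ y ∈ S, Gam (w4 U) K (y, true) := by nlinarith
  have h7 := mul_le_mul_of_nonneg_left h6 hC0
  have h8 : 0 ≤ θ * lam := by positivity
  have h9 : 0 ≤ θ * En (w4 U) K := by positivity
  have h10 : 0 ≤ θ⁻¹ * ∑ y ∈ S, Gam (w4 U) K (y, true) := by positivity
  nlinarith [mul_nonneg hC0 h8, mul_nonneg hC0 h9, mul_nonneg (zero_le_one.trans hC') h8,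
    mul_nonneg (zero_le_one.trans hC') h10]

/-- phase 0, tempered energies (`p = 1`: plain energy) -/
theorem switchT0 : ∃ C : ℝ, 1 ≤ C ∧ ∀ (L : G.Lat) (h : ℝ) (lab : Lab L.X h) (E η : ℝ), 0 < h →
    0 < η → ∀ (ι : Type) [Fintype ι] (Φ : ι → L.P → ℝ) (D lam : ℝ) (p : ℕ), 1 ≤ p → 0 < lam →
    (∀ a b, wt Φ a b ≤ D) → C * ((p - 1) * D) ≤ lam →
    ∀ (S : Finset L.X) (μ : L.X → Measure ℂ) [∀ x, IsProbabilityMeasure (μ x)] (cs : ℕ),
    (∀ c, cs ≤ c → ∀ q, 0 ≤ q → q ≤ 1 →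
      Sh lab E η (st0 h η S μ c q) S (fun K => (lam + En (wt Φ) K) ^ (p - 1)) (wt Φ) ≤
        2 ^ cs / 2 ^ c * Iw lab E η (st0 h η S μ c q) fun K => (lam + En (wt Φ) K) ^ p) →
    Iw lab E η (rep S μ fun _ => lift η (dens (ud h))) (fun K => (lam + En (wt Φ) K) ^ p) ≤
      Real.exp (C * p * (cs + 1)) *
        Iw lab E η (rep S μ fun _ => lawC h η 0) fun K => (lam + En (wt Φ) K) ^ p := by
  obtain ⟨C, hC, H⟩ := fnT
  obtain ⟨C', hC', H'⟩ := phase0
  refine ⟨2 * C * C', by nlinarith, fun L h lab E η hh hη ι _ Φ D lam p hp hl hD hCl S μ _ cs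
    hS => ?_⟩
  have h0 : C * ((p - 1) * D) ≤ lam := by
    rcases le_total 0 (((p : ℝ) - 1) * D) with h1 | h1
    · refine le_trans (mul_le_mul_of_nonneg_right ?_ h1) hCl
      nlinarith
    · nlinarith
  have h1 := H' (H L ι Φ D lam p hp hl hD h0) lab E hh hη μ S cs hS
  rwa [show C' * (2 * C * p) = 2 * C * C' * p by ring] at h1

/-- phase 0, quartic moment -/
theorem switchM0 : ∃ C : ℝ, 1 ≤ C ∧ ∀ (L : G.Lat) (h : ℝ) (lab : Lab L.X h) (E η : ℝ), 0 < h →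
    0 < η → ∀ (m : ℕ) (lam : ℝ), 0 < lam →
    ∀ (S : Finset L.X) (μ : L.X → Measure ℂ) [∀ x, IsProbabilityMeasure (μ x)] (cs : ℕ),
    (∀ c, cs ≤ c → ∀ q, 0 ≤ q → q ≤ 1 →
      Sh lab E η (st0 h η S μ c q) S (fun _ => 1) (L.s4 m) ≤
        2 ^ cs / 2 ^ c * Iw lab E η (st0 h η S μ c q) fun K => lam + En (L.s4 m) K) →
    Iw lab E η (rep S μ fun _ => lift η (dens (ud h))) (fun K => lam + En (L.s4 m) K) ≤
      Real.exp (C * (cs + 1)) *
        Iw lab E η (rep S μ fun _ => lawC h η 0) fun K => lam + En (L.s4 m) K := by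
  obtain ⟨C, hC, H⟩ := fnM
  obtain ⟨C', hC', H'⟩ := phase0
  refine ⟨C' * C, by nlinarith, fun L h lab E η hh hη m lam hl S μ _ cs hS => ?_⟩
  obtain ⟨X, Y, F⟩ := H L m lam hl
  exact H' F lab E hh hη μ S cs hS

/-- phase 1 (thinning), tempered energies -/
theorem switchT1 : ∃ C : ℝ, 1 ≤ C ∧ ∀ (L : G.Lat) (h : ℝ) (lab : Lab L.X h) (E η : ℝ), 0 < h →
    0 < η → ∀ (ι : Type) [Fintype ι] (Φ : ι → L.P → ℝ) (D lam : ℝ) (p : ℕ), 1 ≤ p → 0 < lam →
    (∀ a b, wt Φ a b ≤ D) → 0 ≤ D → C * ((p - 1) * D) ≤ lam →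
    ∀ (S : Finset L.X) (μ : L.X → Measure ℂ) [∀ x, IsProbabilityMeasure (μ x)]
      (a₀ b γ : L.X → ℝ), (∀ x, 0 < b x ∧ 0 ≤ γ x ∧ γ x ≤ b x) →
    ∀ ε α Λ : ℝ, 0 ≤ ε → 0 ≤ α → 1 ≤ Λ →
    (∀ q, 0 ≤ q → q < 1 →
      Bi lab E η (st1 η S μ a₀ b γ q) S a₀ b γ (fun K => (lam + En (wt Φ) K) ^ (p - 1)) (wt Φ) ≤
        (ε / (1 - q) + α) * Iw lab E η (st1 η S μ a₀ b γ q) fun K => (lam + En (wt Φ) K) ^ p) →
    (∀ q, 0 ≤ q → q ≤ 1 →
      Sh lab E η (st1 η S μ a₀ b γ q) S (fun K => (lam + En (wt Φ) K) ^ (p - 1)) (wt Φ) ≤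
        (1 - q) * Λ * Iw lab E η (st1 η S μ a₀ b γ q) fun K => (lam + En (wt Φ) K) ^ p) →
    Iw lab E η (rep S μ fun x => lift η (law (a₀ x) (b x))) (fun K => (lam + En (wt Φ) K) ^ p) ≤
      Real.exp (C * p * ((ε + (p - 1) * D / lam) * Real.log Λ + α + 1)) *
        Iw lab E η (rep S μ fun x => lift (η + γ x) (law (a₀ x) (b x)))
          fun K => (lam + En (wt Φ) K) ^ p := by
  obtain ⟨C, hC, H⟩ := fnT
  obtain ⟨C', hC', H'⟩ := phase1
  obtain ⟨C'', hC'', hstep⟩ := step_ref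
  have hCC : 1 ≤ C' * C'' := one_le_mul_of_one_le_of_one_le hC' hC''
  refine ⟨2 * C * (C' * C''), by nlinarith, fun L h lab E η hh hη ι _ Φ D lam p hp hl hD hD0 hCl S μ
    _ a₀ b γ hb ε α Λ hε hα hΛ hB hS => ?_⟩
  have hp' : (1 : ℝ) ≤ p := by exact_mod_cast hp
  have := fun x => law_prob (a₀ x) (hb x).1
  have h1 : 0 ≤ ((p : ℝ) - 1) * D := mul_nonneg (sub_nonneg.2 hp') hD0
  have h0 : C * ((p - 1) * D) ≤ lam := by
    refine le_trans (mul_le_mul_of_nonneg_right ?_ h1) hCl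
    nlinarith
  have F := H L ι Φ D lam p hp hl hD h0
  have ht0 : 0 ≤ ((p : ℝ) - 1) * D / lam := div_nonneg h1 hl.le
  generalize ((p : ℝ) - 1) * D / lam = t at F ht0 ⊢
  have hCp : 0 ≤ C * p := by positivity
  have h2 := H' F lab E hh hη μ S a₀ b γ hb (C'' * (C * p) * ε + C * p * t) (C'' * (C * p) * α) Λ
    (by positivity) hΛ (fun q h0 h1 => ?_) hS
  · have := isProb_rep S μ fun x => lift (η + γ x) (law (a₀ x) (b x))
    refine h2.trans (mul_le_mul_of_nonneg_right (Real.exp_le_exp.2 ?_) (F.Iw_pos lab E hh hη _))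
    have h3 := Real.log_nonneg hΛ
    have h4 : C'' * (C * p) ≤ 2 * C * (C' * C'') * p := by
      have : 0 ≤ C'' * (C * p) := by positivity
      nlinarith
    have h5 : C * p ≤ 2 * C * (C' * C'') * p := by nlinarith
    have h6 : C' * (2 * C * p) ≤ 2 * C * (C' * C'') * p := by
      have : 0 ≤ C' * (2 * C * p) := by positivity
      nlinarith
    have h7 := mul_le_mul_of_nonneg_right h4 (mul_nonneg hε h3)
    have h8 := mul_le_mul_of_nonneg_right h5 (mul_nonneg ht0 h3)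
    have h9 := mul_le_mul_of_nonneg_right h4 hα
    nlinarith
  · have := isProb_st1 η S μ a₀ γ (fun x => (hb x).1) h0 h1.le
    have hq : 0 < 1 - q := sub_pos.2 h1
    have nG : ∀ y : L.X, Nice fun K : L.Mat =>
        (lam + En (wt Φ) K) ^ (p - 1) * Gam (wt Φ) K (y, true) := fun y => F.nW.mul (nice_Gam _ _)
    have h3 : Dr lab E η μ S a₀ b γ (fun K => (lam + En (wt Φ) K) ^ p) q ≤
        C'' * (C * p) * Bi lab E η (st1 η S μ a₀ b γ q) S a₀ b γ
          (fun K => (lam + En (wt Φ) K) ^ (p - 1)) (wt Φ) +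
        C * p * t / (1 - q) * Sh lab E η (st1 η S μ a₀ b γ q) S
          (fun K => (lam + En (wt Φ) K) ^ (p - 1)) (wt Φ) := by
      rw [Dr, Bi, Sh, mul_sum, mul_sum, ← sum_add_distrib]
      refine sum_le_sum fun y hy => ?_
      have h4 := Iw_step lab E hh hη (st1 η S μ a₀ b γ q) y F.nΨ (F.nX y) (F.nY y) (F.X0 y)
        (F.Y0 y) (mul_nonneg (zero_le_one.trans hC'') (div_nonneg (hb y).2.1 (hb y).1.le))
        zero_le_one (F.loc y) (hstep η (a₀ y) _ _ (hb y).1 (hb y).2.1 (hb y).2.2)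
      rw [Iw_mul, Iw_mul, one_mul] at h4
      have hy' : st1 η S μ a₀ b γ q y =
          mix q (lift (η + γ y) (law (a₀ y) (b y))) (lift η (law (a₀ y) (b y))) := if_pos hy
      have h5 := Iw_open_le lab E hh hη _ h0 h1.le hy' (nG y) fun K hK =>
        mul_nonneg (F.W0 K hK) (Gam_nonneg F.w0 _ _)
      rw [← le_div_iff₀' hq] at h5
      have h6 := mul_le_mul_of_nonneg_left h5 (mul_nonneg hCp ht0)
      rw [← mul_div_assoc, mul_div_right_comm] at h6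
      linarith
    have h4 := mul_le_mul_of_nonneg_left (hB q h0 h1)
      (mul_nonneg (zero_le_one.trans hC'') hCp)
    have h5 := mul_le_mul_of_nonneg_left (F.Sh_le lab E hh hη (st1 η S μ a₀ b γ q) S)
      (div_nonneg (mul_nonneg hCp ht0) hq.le)
    refine h3.trans ((add_le_add h4 h5).trans (le_of_eq ?_))
    ring

/-- phase 1 (thinning), quartic moment -/
theorem switchM1 : ∃ C : ℝ, 1 ≤ C ∧ ∀ (L : G.Lat) (h : ℝ) (lab : Lab L.X h) (E η : ℝ), 0 < h →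
    0 < η → ∀ (m : ℕ) (lam : ℝ), 0 < lam →
    ∀ (S : Finset L.X) (μ : L.X → Measure ℂ) [∀ x, IsProbabilityMeasure (μ x)]
      (a₀ b γ : L.X → ℝ), (∀ x, 0 < b x ∧ 0 ≤ γ x ∧ γ x ≤ b x) → ∀ Λ : ℝ, 1 ≤ Λ →
    (∀ q, 0 ≤ q → q ≤ 1 → Sh lab E η (st1 η S μ a₀ b γ q) S (fun _ => 1) (L.s4 m) ≤
        (1 - q) * Λ * Iw lab E η (st1 η S μ a₀ b γ q) fun K => lam + En (L.s4 m) K) →
    Iw lab E η (rep S μ fun x => lift η (law (a₀ x) (b x))) (fun K => lam + En (L.s4 m) K) ≤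
      Real.exp (C * (Real.log Λ + 1)) *
        Iw lab E η (rep S μ fun x => lift (η + γ x) (law (a₀ x) (b x)))
          fun K => lam + En (L.s4 m) K := by
  obtain ⟨C, hC, H⟩ := fnM
  obtain ⟨C', hC', H'⟩ := phase1
  obtain ⟨C'', hC'', hdr⟩ := drift_open
  refine ⟨(C' + 2 * C'') * C, by nlinarith, fun L h lab E η hh hη m lam hl S μ _ a₀ b γ hb Λ hΛ
    hS => ?_⟩
  obtain ⟨X, Y, F⟩ := H L m lam hl
  have := fun x => law_prob (a₀ x) (hb x).1
  have h2 := H' F lab E hh hη μ S a₀ b γ hb (C'' * (C * 2)) 0 Λ le_rfl hΛ (fun q h0 h1 => ?_) hS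
  · have := isProb_rep S μ fun x => lift (η + γ x) (law (a₀ x) (b x))
    refine h2.trans (mul_le_mul_of_nonneg_right (Real.exp_le_exp.2 ?_) (F.Iw_pos lab E hh hη _))
    have h3 := Real.log_nonneg hΛ
    have h4 : 0 ≤ C' * C * Real.log Λ := by positivity
    have h5 : 0 ≤ C'' * C := by positivity
    nlinarith
  · have := isProb_st1 η S μ a₀ γ (fun x => (hb x).1) h0 h1.le
    have h3 := hdr F lab E hh hη μ S a₀ b γ hb q 1 1 h0 h1 one_pos le_rfl (by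
      rw [one_mul]; exact F.Sh_le lab E hh hη _ S)
    rw [add_zero]
    convert h3 using 5
    norm_num

end Crest.Agent.N334.Sw
end
end

-- ▼ part N334/Main/Sw

/-!
# Row 334, S0519 (helper20): `SwStmt`
-/

set_option autoImplicit false

open MeasureTheory Finset

noncomputable section

namespace Crest.Agent.N334.Mn

open G I Sw Ad Su

namespace Sv

theorem wt_tri {P ι : Type} [Fintype ι] (Φ : ι → P → ℝ) (a b c : P) :
    wt Φ a c ≤ 8 * (wt Φ a b + wt Φ b c) := by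
  rw [wt, wt, wt, ← sum_add_distrib, mul_sum]
  exact sum_le_sum fun j _ => by
    nlinarith [sq_nonneg (Φ j a - Φ j b), sq_nonneg (Φ j b - Φ j c),
      sq_nonneg (Φ j a - Φ j b - (Φ j b - Φ j c))]

theorem wt_le_four {P ι : Type} [Fintype ι] {Φ : ι → P → ℝ} (h : ∀ p, ∑ j, Φ j p ^ 2 = 1)
    (a b : P) : wt Φ a b ≤ 4 := by
  have : wt Φ a b ≤ ∑ j, (2 * Φ j a ^ 2 + 2 * Φ j b ^ 2) :=
    sum_le_sum fun j _ => by nlinarith [sq_nonneg (Φ j a + Φ j b)]
  rw [sum_add_distrib, ← mul_sum, ← mul_sum, h, h] at this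
  linarith

theorem s4_tri (L : G.Lat) (m : ℕ) (a b c : L.P) : L.s4 m a c ≤ 8 * (L.s4 m a b + L.s4 m b c) := by
  have := w4_tri (fun i (p : L.P) => L.U (m + 1) i p.1) a b c
  simpa only [w4, Lat.s4, Lat.del, ← pow_mul] using this

theorem ini_nonneg (S : Su) {F : S.L.Mat → ℝ} (h : ∀ K, IsPort K → 0 ≤ F K) : 0 ≤ S.ini F :=
  Sw.Iw_nonneg _ _ S.η0 _ h

/-- both phases, tempered energies -/
theorem swT {A : ℝ} (hA0 : 0 ≤ A) : ∃ C : ℝ, 1 ≤ C ∧ ∀ (S : Su) (κ ε₁ ε₂ ℓ₁ ℓ₂ : ℝ),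
    S.World κ ε₁ ε₂ ℓ₁ ℓ₂ → 0 ≤ ε₁ → (S.a : ℝ) ≤ ℓ₁ → (S.b : ℝ) ≤ ℓ₂ → ε₁ * ℓ₂ ≤ 1 →
    ∀ (ι : Type) [Fintype ι] (Φ : ι → S.L.P → ℝ) (D lam : ℝ) (p : ℕ), 1 ≤ p → 0 < lam →
    (∀ a b, wt Φ a b ≤ D) → C * ((p - 1) * D) ≤ lam → C * ((p - 1) * D) ≤ κ * lam →
    (p - 1) * D * ℓ₂ ≤ 4 * lam → Ak (kx S.L S.D) (wt Φ) ≤ A * lam →
    S.mid (fun K => (lam + En (wt Φ) K) ^ p) ≤
      Real.exp (C * p * ℓ₁) * S.ini fun K => (lam + En (wt Φ) K) ^ p := by
  obtain ⟨C₀, hC₀, H₀⟩ := switchT0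
  obtain ⟨C₁, hC₁, H₁⟩ := switchT1
  obtain ⟨C₂, hC₂, H₂⟩ := tempT
  obtain ⟨B, hB⟩ : ∃ B, B = 5410 + 194 * A := ⟨_, rfl⟩
  have hB1 : 1 ≤ B := by linarith
  have e0 : C₀ ≤ 4 * B * C₀ := by nlinarith
  have e1 : C₁ ≤ (5 * B + A + 1) * C₁ := by nlinarith
  refine ⟨4 * B * C₀ + (5 * B + A + 1) * C₁ + C₂, by linarith,
    fun S κ ε₁ ε₂ ℓ₁ ℓ₂ hW hε ha hb hεℓ ι _ Φ D lam p hp hl hD h1 h2 h3 hA => ?_⟩
  have h8 := S.eight_le_a
  have h8' := S.eight_le_b
  have hp' : (1 : ℝ) ≤ p := by exact_mod_cast hp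
  have hD0 : 0 ≤ D := (wt_nonneg Φ ((0 : Fin 2 → ZMod (2 ^ S.N)), true)
    ((0 : Fin 2 → ZMod (2 ^ S.N)), true)).trans (hD _ _)
  have hpD : 0 ≤ ((p : ℝ) - 1) * D := mul_nonneg (by linarith) hD0
  have hT := H₂ S.L S.E S.η S.η0 ι Φ D lam κ p hp hl hD
    (le_trans (mul_le_mul_of_nonneg_right (by linarith) hpD) h2)
  obtain ⟨cs, hc1, hc2⟩ := exists_cs (x := B * ℓ₁) (by nlinarith)
  have k0 := H₀ S.L S.h S.lab S.E S.η S.hh S.η0 ι Φ D lam p hp hl hD
    (le_trans (mul_le_mul_of_nonneg_right (by linarith) hpD) h1) S.P₀ S.μ₁ cs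
    fun c _ q h0 h1 => sh₀ hW (wt_nonneg Φ) hl hp hT hA0 hA (wt_tri Φ) ha (hB ▸ hc1) c h0 h1
  have k1 := H₁ S.L S.h S.lab S.E S.η S.hh S.η0 ι Φ D lam p hp hl hD hD0
    (le_trans (mul_le_mul_of_nonneg_right (by linarith) hpD) h1) S.P₁ S.μ₁
    (fun _ => S.a0) (fun _ => S.b0) (fun _ => S.γ₁) (fun _ => ⟨S.b0_pos, S.γ₁_pos.le, S.γ₁_le⟩)
    ε₁ (ε₁ * A) (Real.exp (B * ℓ₂)) hε (by positivity) (Real.one_le_exp (by nlinarith))
    (fun q h0 h1 => bi₁ hW (wt_nonneg Φ) hl hp hT hA hε h0 h1)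
    fun q h0 h1 => hB ▸ sh₁ hW (wt_nonneg Φ) hl hp hT hA0 hA (wt_tri Φ) hb h0 h1
  rw [rep₀_eq, ← ini_eq] at k0
  rw [rep₁_eq, ← mid_eq, Real.log_exp] at k1
  refine k1.trans ((mul_le_mul_of_nonneg_left k0 (Real.exp_pos _).le).trans ?_)
  rw [← mul_assoc, ← Real.exp_add]
  refine mul_le_mul_of_nonneg_right (Real.exp_le_exp.2 ?_) (ini_nonneg S fun K _ => by
    have := En_nonneg (wt_nonneg Φ) K; positivity)
  have g1 : (p - 1) * D / lam * ℓ₂ ≤ 4 := by rwa [div_mul_eq_mul_div, div_le_iff₀ hl]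
  have g2 : ε₁ ≤ 1 := by nlinarith
  have g3 : (ε₁ + (p - 1) * D / lam) * (B * ℓ₂) + ε₁ * A + 1 ≤ (5 * B + A + 1) * ℓ₁ := by
    have : (ε₁ + (p - 1) * D / lam) * (B * ℓ₂) ≤ 5 * B := by nlinarith
    nlinarith
  have g4 := mul_le_mul_of_nonneg_left g3 (show 0 ≤ C₁ * p by positivity)
  have g5 := mul_le_mul_of_nonneg_left hc2 (show 0 ≤ C₀ * p by positivity)
  have g6 : 0 ≤ C₂ * p * ℓ₁ := by have : 0 ≤ ℓ₁ := by linarith
                                  positivity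
  nlinarith

/-- both phases, quartic moments -/
theorem swM {A : ℝ} (hA0 : 0 ≤ A) : ∃ C : ℝ, 1 ≤ C ∧ ∀ (S : Su) (κ ε₁ ε₂ ℓ₁ ℓ₂ : ℝ),
    S.World κ ε₁ ε₂ ℓ₁ ℓ₂ → 0 ≤ κ → (S.a : ℝ) ≤ ℓ₁ → (S.b : ℝ) ≤ ℓ₂ →
    ∀ (m : ℕ) (lam : ℝ), 0 < lam → Ak (kx S.L S.D) (S.L.s4 m) ≤ A * lam →
    S.mid (fun K => lam + En (S.L.s4 m) K) ≤
      Real.exp (C * (ℓ₁ + ℓ₂)) * S.ini fun K => lam + En (S.L.s4 m) K := by
  obtain ⟨C₀, hC₀, H₀⟩ := switchM0
  obtain ⟨C₁, hC₁, H₁⟩ := switchM1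
  obtain ⟨B, hB⟩ : ∃ B, B = 5410 + 194 * A := ⟨_, rfl⟩
  have hB1 : 1 ≤ B := by linarith
  refine ⟨4 * B * C₀ + (B + 1) * C₁, by nlinarith,
    fun S κ ε₁ ε₂ ℓ₁ ℓ₂ hW hκ ha hb m lam hl hA => ?_⟩
  have h8 := S.eight_le_a
  have h8' := S.eight_le_b
  have hT : Temp S.E S.η (fun K : S.L.Mat => (lam + En (S.L.s4 m) K) ^ (1 - 1)) κ := by
    simp only [Nat.sub_self, pow_zero]
    exact ⟨Nice.const _, fun _ _ => zero_le_one, fun _ _ _ => by simpa using hκ⟩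
  obtain ⟨cs, hc1, hc2⟩ := exists_cs (x := B * ℓ₁) (by nlinarith)
  have k0 := H₀ S.L S.h S.lab S.E S.η S.hh S.η0 m lam hl S.P₀ S.μ₁ cs fun c _ q h0 h1 => by
    simpa only [Nat.sub_self, pow_zero, pow_one] using
      sh₀ hW (S.L.s4_nonneg m) hl le_rfl hT hA0 hA (s4_tri _ m) ha (hB ▸ hc1) c h0 h1
  have k1 := H₁ S.L S.h S.lab S.E S.η S.hh S.η0 m lam hl S.P₁ S.μ₁
    (fun _ => S.a0) (fun _ => S.b0) (fun _ => S.γ₁) (fun _ => ⟨S.b0_pos, S.γ₁_pos.le, S.γ₁_le⟩)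
    (Real.exp (B * ℓ₂)) (Real.one_le_exp (by nlinarith)) fun q h0 h1 => by
      simpa only [Nat.sub_self, pow_zero, pow_one, hB] using
        sh₁ hW (S.L.s4_nonneg m) hl le_rfl hT hA0 hA (s4_tri _ m) hb h0 h1
  rw [rep₀_eq, ← ini_eq] at k0
  rw [rep₁_eq, ← mid_eq, Real.log_exp] at k1
  refine k1.trans ((mul_le_mul_of_nonneg_left k0 (Real.exp_pos _).le).trans ?_)
  rw [← mul_assoc, ← Real.exp_add]
  refine mul_le_mul_of_nonneg_right (Real.exp_le_exp.2 ?_) (ini_nonneg S fun K _ => by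
    have := En_nonneg (S.L.s4_nonneg m) K; positivity)
  have g4 := mul_le_mul_of_nonneg_left (show B * ℓ₂ + 1 ≤ (B + 1) * ℓ₂ by linarith)
    (show 0 ≤ C₁ by positivity)
  have g5 := mul_le_mul_of_nonneg_left hc2 (show 0 ≤ C₀ by positivity)
  have g6 : 0 ≤ B * C₀ * ℓ₂ := by have : 0 ≤ ℓ₂ := by linarith
                                  positivity
  have g7 : 0 ≤ (B + 1) * C₁ * ℓ₁ := by have : 0 ≤ ℓ₁ := by linarith
                                        positivity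
  nlinarith

theorem I_add (S : Su) {μ : S.L.X → Measure ℂ} (hμ : ∀ x, S.Adm (μ x)) (lam : ℝ)
    (w : S.L.P → S.L.P → ℝ) : S.I μ (fun K => lam + En w K) = lam + S.I μ (En w) := by
  have := fun x => (hμ x).prob
  rw [Su.I, Iw_add _ _ S.hh S.η0 μ (Nice.const _) (nice_En w), Iw_const _ _ S.hh]
  rfl

theorem unshift (S : Su) {lam r : ℝ} (hl : 0 ≤ lam) {w : S.L.P → S.L.P → ℝ}
    (h : S.mid (fun K => lam + En w K) ≤ r * S.ini fun K => lam + En w K) :
    S.mid (En w) ≤ r * (S.ini (En w) + lam) := by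
  rw [mid, ini, I_add S (adm_mu S.adm_unif S.adm_port₀ S.adm_port₂),
    I_add S (adm_mu (S.adm_lawC 0) S.adm_port₁ S.adm_port₂)] at h
  rw [mid, ini, add_comm]
  linarith

end Sv

open Sv

theorem sw : SwStmt := by
  obtain ⟨A₁, hA₁, K₁⟩ := ak_r2
  obtain ⟨A₂, hA₂, K₂⟩ := ak_s4
  obtain ⟨A₃, hA₃, K₃⟩ := ak_wF
  obtain ⟨C₁, hC₁, H₁⟩ := swT (A := A₁ * 42 ^ 4) (by positivity)
  obtain ⟨C₂, hC₂, H₂⟩ := swM (A := A₂ * 42 ^ 6) (by positivity)
  obtain ⟨C₃, hC₃, H₃⟩ := swT (A := A₃ * 42 ^ 4) (by positivity)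
  refine ⟨C₁ + C₂ + 4 * C₃, by linarith, fun S κ ε₁ ε₂ ℓ₁ ℓ₂ hW hκ hε ha hb hεℓ => ?_⟩
  have h8 := S.eight_le_a
  have h8' := S.eight_le_b
  have hv := S.vol_pos
  refine ⟨?_, fun m hm => ?_, fun c R2 lam p hR hp h1 h2 h3 h4 => ?_⟩
  · have hl : 0 < (S.b : ℝ) ^ 4 * S.vol := by positivity
    have e : wt (S.L.Phi S.L.N) = S.L.r2 := S.L.wt_Phi _
    have := H₁ S κ ε₁ ε₂ ℓ₁ ℓ₂ hW hε ha hb hεℓ _ (S.L.Phi S.L.N) (8 * 4 ^ S.L.N) _ 1 le_rfl hl
      (fun a b => S.L.wt_Phi _ ▸ S.L.rho2_le_pow _ a b) (by simpa using hl.le)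
      (by simpa using mul_nonneg hκ hl.le) (by simpa using hl.le)
      (e ▸ (K₁ S.L S.D one_le_D).trans_eq (by unfold Su.D Su.vol; ring))
    simp only [pow_one, e, Nat.cast_one, mul_one] at this
    refine (unshift S hl.le this).trans (mul_le_mul_of_nonneg_right (Real.exp_le_exp.2 ?_)
      (add_nonneg (ini_nonneg S fun K _ => En_nonneg (S.L.rho2_nonneg _) K) hl.le))
    nlinarith
  · have hl : 0 < (S.b : ℝ) ^ 6 / 16 ^ m * S.vol := by positivity
    have := H₂ S κ ε₁ ε₂ ℓ₁ ℓ₂ hW hκ ha hb m _ hl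
      ((K₂ S.L S.D one_le_D m hm).trans_eq (by unfold Su.D Su.vol; ring))
    refine (unshift S hl.le this).trans (mul_le_mul_of_nonneg_right (Real.exp_le_exp.2 ?_)
      (add_nonneg (ini_nonneg S fun K _ => En_nonneg (S.L.s4_nonneg _) K) hl.le))
    nlinarith
  · obtain ⟨F, hF, e⟩ := exists_stereo S.L c (show 0 < R2 by linarith)
    have hp' : (1 : ℝ) ≤ p := by exact_mod_cast hp
    have hb4 : 0 < (S.b : ℝ) ^ 4 := by positivity
    have hl4 : (S.b : ℝ) ^ 4 ≤ lam := by nlinarith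
    have hl : 0 < lam := by linarith
    have := H₃ S κ ε₁ ε₂ ℓ₁ ℓ₂ hW hε ha hb hεℓ _ F 4 lam p hp hl (wt_le_four hF)
      (by nlinarith) (by nlinarith) (by nlinarith)
      (e ▸ (K₃ S.L S.D one_le_D c R2 hR).trans (by
        rw [Su.D, mul_pow, ← mul_assoc]; gcongr))
    rw [e] at this
    refine this.trans (mul_le_mul_of_nonneg_right (Real.exp_le_exp.2 ?_) (ini_nonneg S fun K _ => by
      have := En_nonneg (wF_nonneg S.L c (show 0 < R2 by linarith)) K; positivity))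
    have : 0 ≤ p * ℓ₁ := by nlinarith
    nlinarith

end Crest.Agent.N334.Mn
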